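import Vale.Agent.P354H.Fin

/-!
Local existence with a bound of five derivatives.
-/

open scoped ContDiff
open MeasureTheory Set Filter Topology

namespace Vale.Agent.P354SR

open Vale.Agent.P354H

section
variable {V : Type} [NormedAddCommGroup V] [InnerProductSpace ℝ V]

/-- The limit of the scheme on a set of times. -/
theorem pre_of5 [FiniteDimensional ℝ V] {S : Sys V} {C : ℕ → ℝ} {t0 r : ℝ} {w : X3 → V}
    (hS : S.OK) (hC : S.Bd (Icc (t0 - 1) (t0 + 1)) C) (hw : Good w) (hr : Nk 8 w r) {I : Set ℝ}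
    {h : ℕ → ℝ} {N : ℕ → ℝ → ℕ} (hh : ∀ m, |h m| = ep m ^ 2)
    (hN : ∀ m t, N m t * ep m ^ 2 ≤ del C r)
    (hN' : ∀ m, ∀ t ∈ I, |N m t * h m - (t - t0)| ≤ ep m ^ 2) (h0 : ∀ m, N m t0 = 0) :
    ∃ U, Pre S I U ∧ U t0 = w ∧ ∀ t, Sb 5 (U t) (3 * (2 * r)) := by
  have := FiniteDimensional.complete ℝ V
  have hgd := fun m n => good_sch hS.sm (ep m) (h m) t0 hw n
  set u : ℕ → ℕ → X3 → V := fun m n => sch S (ep m) (h m) t0 w n with hu
  have hb : ∀ k, ∃ c, ∀ m n : ℕ, n * ep m ^ 2 ≤ del C r →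
      Sb k (u m n) c ∧ Sb k (Gd S (ep m) (t0 + n * h m) (u m n)) c := fun k => by
    obtain ⟨c, hc⟩ := sch_bd hS hC hw hr k
    exact ⟨c, fun m n hn => hc _ _ (ep_pos m) (ep_le m) (hh m).le n hn⟩
  choose c hc using hb
  have hle : ∀ m (t t' : ℝ) (i : ℕ), i ≤ max (N m t) (N m t') → i * ep m ^ 2 ≤ del C r := by
    intro m t t' i hi
    rcases le_max_iff.1 hi with hi | hi
    · exact (mul_le_mul_of_nonneg_right (Nat.cast_le.2 hi) (sq_nonneg _)).trans (hN m t)
    · exact (mul_le_mul_of_nonneg_right (Nat.cast_le.2 hi) (sq_nonneg _)).trans (hN m t')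
  have hst : ∀ α m i x, pdl α (u m (i + 1)) x - pdl α (u m i) x =
      h m • pdl α (Gd S (ep m) (t0 + i * h m) (u m i)) x := fun α m i x => by
    have hG := good_Gd hS.sm (ep m) (t0 + i * h m) (hgd m i)
    have : u m (i + 1) = u m i + h m • Gd S (ep m) (t0 + i * h m) (u m i) := rfl
    rw [this, pdl_add α (hgd m i).1 (hG.smul _).1, pdl_smul α _ hG.1]
    simp [hu]
  have hlip : ∀ α m (n n' : ℕ) x, max n n' * ep m ^ 2 ≤ del C r →
      ‖pdl α (u m n') x - pdl α (u m n) x‖ ≤ |(n' : ℝ) * h m - n * h m| * c α.length := by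
    intro α m n n' x hn
    have h1 := tele' (a := fun i => pdl α (u m i) x) (v := 0) (η := |h m| * c α.length) n n'
      fun i _ hi => by
        rw [sub_zero, hst, norm_smul]
        refine mul_le_mul_of_nonneg_left ((hc _ m i ?_).2 α le_rfl x) (abs_nonneg _)
        exact (mul_le_mul_of_nonneg_right (by exact_mod_cast hi.le) (sq_nonneg _)).trans hn
    rw [smul_zero, sub_zero, ← mul_assoc, ← abs_mul, sub_mul] at h1
    exact h1
  have hlim : ∀ t α x, ∃ v, Tendsto (fun m => pdl α (u m (N m t)) x) (hyperfilter ℕ) (𝓝 v) :=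
    fun t α x => ex_lim fun m => (hc α.length m _ (hN m t)).1 α le_rfl x
  choose g hg using hlim
  have hsp := fun t => lim_space (fun m => (hgd m (N m t)).1)
    (fun k => ⟨c k, fun m => (hc k m _ (hN m t)).1⟩) (hg t)
  have hsb : ∀ t k d, (∀ m, Sb k (u m (N m t)) d) → Sb k (g t []) d := fun t k d hd α hα x => by
    rw [(hsp t).2 α]
    exact le_of_tendsto' (hg t α x).norm fun m => hd m α hα x
  have hτ : ∀ t ∈ I, Tendsto (fun m => N m t * h m) (hyperfilter ℕ) (𝓝 (t - t0)) := by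
    intro t ht
    rw [tendsto_iff_norm_sub_tendsto_zero]
    exact squeeze_zero (fun m => norm_nonneg _) (fun m => (hN' m t ht).trans (ep_sq m)) ep_lim
  have htl : ∀ α, ∀ t ∈ I, ∀ t' ∈ I, ∀ x, ‖g t' α x - g t α x‖ ≤ |t' - t| * c α.length := by
    intro α t ht t' ht' x
    have h1 := (((hτ t' ht').sub (hτ t ht)).abs).mul_const (c α.length)
    rw [sub_sub_sub_cancel_right] at h1
    refine le_of_tendsto_of_tendsto' ((hg t' α x).sub (hg t α x)).norm h1 fun m => ?_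
    refine hlip α m _ _ x ?_
    exact_mod_cast hle m t t' _ le_rfl
  refine ⟨fun t => g t [], ⟨fun t _ => (hsp t).1, fun α => ?_, fun t ht x => ?_⟩, ?_,
    fun t => hsb t 5 _ fun m => Nk.sb (base hS hC hw hr (ep_pos m) (ep_le m) (hh m).le _ (hN m t))
      (hgd m _)⟩
  · intro p hp
    have h1 : Continuous fun q : ℝ × X3 =>
        |q.1 - p.1| * c α.length + 3 * c (1 + α.length) * ‖q.2 - p.2‖ := by fun_prop
    have h2 := (h1.tendsto p).mono_left (nhdsWithin_le_nhds (s := I ×ˢ univ))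
    simp only [sub_self, abs_zero, zero_mul, norm_zero, mul_zero, add_zero] at h2
    rw [ContinuousWithinAt, tendsto_iff_norm_sub_tendsto_zero]
    refine squeeze_zero' (Eventually.of_forall fun _ => norm_nonneg _)
      (eventually_nhdsWithin_of_forall fun q hq => ?_) h2
    refine (norm_sub_le_norm_sub_add_norm_sub _ (pdl α (g p.1 []) q.2) _).trans (add_le_add ?_ ?_)
    · rw [(hsp q.1).2, (hsp p.1).2]
      exact htl α _ hp.1 _ hq.1 _
    · exact ((hsb p.1 _ _ fun m => (hc _ m _ (hN m p.1)).1).pdl α).lip (pdl_sm α (hsp p.1).1) _ _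
  · rw [hasDerivWithinAt_iff_isLittleO, Asymptotics.isLittleO_iff]
    intro η hη
    obtain ⟨ρ, hρ, hΦ⟩ := Metric.continuousAt_iff.1
      ((cont_rhs hS.sm x).continuousAt (x := (t, g t [] x, fun j => pd j (g t []) x))) η hη
    have hc2 : 0 ≤ c 2 := (hc 2 0 _ (hN 0 t)).1.nonneg
    have hlip2 : ∀ α, α.length ≤ 1 → ∀ m (n n' : ℕ), max n n' * ep m ^ 2 ≤ del C r →
        ‖pdl α (u m n') x - pdl α (u m n) x‖ ≤ |(n' : ℝ) * h m - n * h m| * (c 0 + c 1) := by
      intro α hα m n n' hn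
      refine (hlip α m n n' x hn).trans (mul_le_mul_of_nonneg_left ?_ (abs_nonneg _))
      have a0 : 0 ≤ c 0 := (hc 0 0 _ (hN 0 t)).1.nonneg
      have a1 : 0 ≤ c 1 := (hc 1 0 _ (hN 0 t)).1.nonneg
      rcases Nat.le_one_iff_eq_zero_or_eq_one.1 hα with h1 | h1 <;> rw [h1] <;> linarith
    have h1 : Tendsto (fun s => |s - t| * (|c 0 + c 1| + 1)) (𝓝[I] t)
        (𝓝 (|t - t| * (|c 0 + c 1| + 1))) :=
      ((by fun_prop : Continuous fun s : ℝ => |s - t| * (|c 0 + c 1| + 1)).tendsto t).mono_left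
        nhdsWithin_le_nhds
    rw [sub_self, abs_zero, zero_mul] at h1
    filter_upwards [h1.eventually (gt_mem_nhds (half_pos hρ)), self_mem_nhdsWithin] with s hs hsI
    have h2 := ((hτ s hsI).sub (hτ t ht))
    rw [sub_sub_sub_cancel_right] at h2
    have h3 := (((hg s [] x).sub (hg t [] x)).sub (h2.smul_const (S.G t (g t []) x))).norm
    rw [mul_comm]
    refine le_of_tendsto_of_tendsto h3 (h2.norm.mul_const η) ?_
    have e1 := (h2.abs.mul_const (|c 0 + c 1| + 1)).eventually (gt_mem_nhds hs)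
    have e2 := (ep_lim.const_mul (c 2 + 1)).eventually
      (gt_mem_nhds (show (c 2 + 1) * 0 < ρ / 4 by linarith))
    have e3 := Metric.tendsto_nhds.1 (hg t [] x) (ρ / 4) (by linarith)
    have e4 := eventually_all.2 fun j => Metric.tendsto_nhds.1 (hg t [j] x) (ρ / 4) (by linarith)
    filter_upwards [e1, e2, e3, e4] with m e1 e2 e3 e4
    have h4 := tele' (a := fun i => u m i x) (v := h m • S.G t (g t []) x) (η := |h m| * η)
      (N m t) (N m s) fun i hi hi' => ?_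
    · rw [smul_smul, ← mul_assoc, ← abs_mul, sub_mul] at h4
      exact h4
    have hi1 := hle m t s i hi'.le
    have hi2 := between (h := h m) hi hi'
    have hmx : (max (N m t) i : ℕ) * ep m ^ 2 ≤ del C r :=
      hle m t s _ (max_le (le_max_left _ _) hi'.le)
    have hd : |(i : ℝ) * h m - N m t * h m| * (|c 0 + c 1| + 1) < ρ / 2 :=
      (mul_le_mul_of_nonneg_right hi2 (by positivity)).trans_lt e1
    have ha := abs_nonneg ((i : ℝ) * h m - N m t * h m)
    have hb := abs_nonneg (c 0 + c 1)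
    have hd1 : |(i : ℝ) * h m - N m t * h m| < ρ / 2 := by nlinarith
    have hd2 : |(i : ℝ) * h m - N m t * h m| * (c 0 + c 1) < ρ / 2 := by
      nlinarith [le_abs_self (c 0 + c 1)]
    have he := ep_pos m
    have he1 : ep m < ρ / 4 := by nlinarith
    have he2 : c 2 * ep m < ρ / 4 := by nlinarith
    have h5 := hst [] m i x
    simp only [pdl] at h5
    rw [h5, ← smul_sub, norm_smul, Gd_apply]
    refine mul_le_mul_of_nonneg_left ?_ (abs_nonneg _)
    rw [← dist_eq_norm]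
    refine (hΦ (x := (t0 + i * h m, u m i x, fun j => fd (ep m) j (u m i) x)) ?_).le
    rw [Prod.dist_eq, Prod.dist_eq, max_lt_iff, max_lt_iff, dist_pi_lt_iff hρ]
    refine ⟨?_, ?_, fun j => ?_⟩
    · have h6 := (hN' m t ht).trans (ep_sq m)
      rw [Real.dist_eq, show t0 + i * h m - t = (i * h m - N m t * h m) +
        (N m t * h m - (t - t0)) by ring]
      refine (abs_add_le _ _).trans_lt ?_
      linarith
    · have h6 := hlip2 [] (by simp) m (N m t) i hmx
      rw [← dist_eq_norm] at h6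
      refine (dist_triangle _ (pdl [] (u m (N m t)) x) _).trans_lt ?_
      simp only [pdl] at h6 e3 ⊢
      linarith
    · have h6 := hlip2 [j] (by simp) m (N m t) i hmx
      have h7 := fd_close (hc 2 m i hi1).1 (hgd m i).1 he j x
      have h8 := e4 j
      rw [← (hsp t).2 [j]] at h8
      rw [← dist_eq_norm] at h6 h7
      refine (dist_triangle4 _ (pdl [j] (u m i) x) (pdl [j] (u m (N m t)) x) _).trans_lt ?_
      simp only [pdl] at h6 h8 ⊢
      linarith
  · funext x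
    have h1 := hg t0 [] x
    simp only [h0, hu, sch, pdl] at h1
    exact tendsto_nhds_unique h1 tendsto_const_nhds

theorem one_side5 [FiniteDimensional ℝ V] {S : Sys V} {C : ℕ → ℝ} {t0 r σ : ℝ} {w : X3 → V}
    (hS : S.OK) (hC : S.Bd (Icc (t0 - 1) (t0 + 1)) C) (hw : Good w) (hr : Nk 8 w r)
    (hσ : σ = 1 ∨ σ = -1) : ∃ U, Pre S {t | σ * (t - t0) ∈ Icc 0 (del C r)} U ∧ U t0 = w ∧
      ∀ t, Sb 5 (U t) (3 * (2 * r)) := by
  have h1 : |σ| = 1 := by rcases hσ with h | h <;> simp [h]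
  have h2 : σ * σ = 1 := by rcases hσ with h | h <;> simp [h]
  refine pre_of5 hS hC hw hr (h := fun m => σ * ep m ^ 2)
    (N := fun m t => ⌊max 0 (min (σ * (t - t0)) (del C r)) / ep m ^ 2⌋₊) (fun m => ?_)
    (fun m t => ?_) (fun m t ht => ?_) fun m => ?_
  · rw [abs_mul, h1, one_mul, abs_of_nonneg (sq_nonneg _)]
  · have hp := pow_pos (ep_pos m) 2
    rw [← le_div_iff₀ hp]
    refine (Nat.floor_le (by positivity)).trans (div_le_div_of_nonneg_right ?_ hp.le)
    exact max_le (del_pos C r).le (min_le_right _ _)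
  · have hp := pow_pos (ep_pos m) 2
    rw [min_eq_left ht.2, max_eq_right ht.1]
    have h3 := Nat.floor_le (div_nonneg ht.1 hp.le)
    have h4 := Nat.lt_floor_add_one (σ * (t - t0) / ep m ^ 2)
    rw [le_div_iff₀ hp] at h3
    rw [div_lt_iff₀ hp] at h4
    have h5 : (⌊σ * (t - t0) / ep m ^ 2⌋₊ : ℝ) * (σ * ep m ^ 2) - (t - t0) =
        σ * (⌊σ * (t - t0) / ep m ^ 2⌋₊ * ep m ^ 2 - σ * (t - t0)) := by
      linear_combination (t - t0) * h2
    rw [h5, abs_mul, h1, one_mul, abs_le]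
    constructor <;> linarith
  · simp [(del_pos C r).le]

end

theorem pre5 (C : ℕ → ℝ) (R : ℝ) : ∃ δ c : ℝ, 0 < δ ∧ δ ≤ 1 ∧
    ∀ (V : Type) [NormedAddCommGroup V] [InnerProductSpace ℝ V] [FiniteDimensional ℝ V]
      (S : Sys V) (t0 : ℝ) (w : X3 → V), S.OK → S.Bd (Icc (t0 - 1) (t0 + 1)) C → Good w →
      Hk 8 w R → ∃ U, Pre S (Ioo (t0 - δ) (t0 + δ)) U ∧ U t0 = w ∧
        ∀ t ∈ Ioo (t0 - δ) (t0 + δ), Sb 5 (U t) c := by
  refine ⟨del C (√R), 3 * (2 * √R), del_pos _ _, del_le _ _, fun V _ _ _ S t0 w hS hC hw hR => ?_⟩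
  obtain ⟨U, hU, h0, hb⟩ := one_side5 hS hC hw hR.nk (Or.inl rfl)
  obtain ⟨U', hU', h0', hb'⟩ := one_side5 hS hC hw hR.nk (Or.inr rfl)
  refine ⟨fun t => if t0 ≤ t then U t else U' t, Pre.mono (Pre.union (hU.congr fun t ht => ?_)
    (hU'.congr fun t ht => ?_) (isClosed_Icc.preimage (by fun_prop))
    (isClosed_Icc.preimage (by fun_prop))) fun t ht => ?_, by simp [h0], fun t _ => ?_⟩
  · exact if_pos (by linarith [ht.1])
  · split_ifs with h
    · have : t = t0 := by linarith [ht.1]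
      rw [this, h0, h0']
    · rfl
  · rcases le_total t0 t with h | h
    · exact Or.inl ⟨by linarith, by linarith [ht.2]⟩
    · exact Or.inr ⟨by linarith, by linarith [ht.1]⟩
  · dsimp only
    split_ifs
    exacts [hb t, hb' t]

open Vale.Agent.P354HL in
/-- **LOCAL.** -/
theorem local5 (C : ℕ → ℝ) (R : ℝ) : ∃ δ c : ℝ, 0 < δ ∧ δ ≤ 1 ∧
    ∀ (V : Type) [NormedAddCommGroup V] [InnerProductSpace ℝ V] [FiniteDimensional ℝ V]
      (S : Sys V) (t0 : ℝ) (w : X3 → V), S.OK → S.Bd (Icc (t0 - 1) (t0 + 1)) C → Good w →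
      Hk 8 w R → ∃ W, ContDiff ℝ ∞ W ∧ HasCompactSupport W ∧ sl W t0 = w ∧
        (∀ p : ℝ × X3, p.1 ∈ Icc (t0 - δ) (t0 + δ) → S.Holds W p) ∧
        ∀ t ∈ Icc (t0 - δ) (t0 + δ), Sb 5 (sl W t) c := by
  obtain ⟨δ, c, d0, d1, h⟩ := pre5 C R
  refine ⟨δ / 2, c, by linarith, by linarith, fun V _ _ _ S t0 w ok bd gw hw => ?_⟩
  obtain ⟨U, u1, u2, u3⟩ := h V S t0 w ok bd gw hw
  have sm := smooth V S _ _ U ok.sm u1
  have hO : IsOpen (Ioo (t0 - δ) (t0 + δ) ×ˢ (univ : Set X3)) := isOpen_Ioo.prod isOpen_univ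
  have ho : ∀ p ∈ Ioo (t0 - δ) (t0 + δ) ×ˢ (univ : Set X3), S.Holds (fun p => U p.1 p.2) p :=
    fun p hp => by
      have d := (sm.contDiffAt (hO.mem_nhds hp)).differentiableAt (by simp)
      have a0 : HasDerivAt (fun s => U s p.2) (dt (fun p => U p.1 p.2) p) p.1 :=
        HasFDerivAt.comp_hasDerivAt (l := fun p : ℝ × X3 => U p.1 p.2) (f := fun s => (s, p.2)) p.1
          d.hasFDerivAt ((hasDerivAt_id p.1).prodMk (hasDerivAt_const p.1 p.2))
      have a := a0.unique ((u1.deriv p.1 hp.1 p.2).hasDerivAt (isOpen_Ioo.mem_nhds hp.1))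
      refine a.trans ?_
      simp only [Sys.G, ← pd_sl_at (t := p.1) (x := p.2) d]
      rfl
  have H : ∀ p ∈ Ioo (t0 - δ) (t0 + δ) ×ˢ (univ : Set X3),
      (∀ j, Sym (S.A j p (U p.1 p.2)) ∧ ‖S.A j p (U p.1 p.2)‖ ≤ C 0 + C 0 * c) ∧
      ‖dt (fun p => U p.1 p.2) p - ∑ j, S.A j p (U p.1 p.2) (dx j (fun p => U p.1 p.2) p)‖ ≤
        (C 0 + C 0 * c) * ‖U p.1 p.2‖ := fun p hp => by
    obtain ⟨b1, b2, b3⟩ := bd 0 p.1 ⟨by linarith [hp.1.1], by linarith [hp.1.2]⟩
    have b4 := (u3 p.1 hp.1).zero p.2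
    refine ⟨fun j => ⟨sym_A ok j p _, (norm_add_le _ _).trans (add_le_add ((b1 j).1.zero p.2)
      (((S.l j p).le_opNorm _).trans
        (mul_le_mul ((b1 j).2.zero p.2) b4 (norm_nonneg _) b2.nonneg)))⟩, ?_⟩
    rw [ho p hp, add_sub_cancel_left, add_mul]
    exact (norm_add_le _ _).trans (add_le_add (((S.b p).le_opNorm _).trans
      (mul_le_mul_of_nonneg_right (b2.zero p.2) (norm_nonneg _))) (((S.q p _).le_opNorm _).trans
      (mul_le_mul_of_nonneg_right (((S.q p).le_opNorm _).trans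
        (mul_le_mul (b3.zero p.2) b4 (norm_nonneg _) b2.nonneg)) (norm_nonneg _))))
  have m0 : t0 ∈ Ioo (t0 - δ) (t0 + δ) := ⟨by linarith, by linarith⟩
  have a0 : 0 ≤ C 0 + C 0 * c := (norm_nonneg _).trans ((H (t0, 0) ⟨m0, mem_univ _⟩).1 0).2
  have s1 := sm.of_le (m := 1) (by simp)
  have hA : ∀ j, ContDiffOn ℝ 1 (fun p => S.A j p (U p.1 p.2)) (Ioo (t0 - δ) (t0 + δ) ×ˢ univ) :=
    fun j => ((ok.sm.a j).of_le (by simp)).contDiffOn.add
      (((ok.sm.l j).of_le (by simp)).contDiffOn.clm_apply s1)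
  obtain ⟨ρ, hρ⟩ := gw.2.isBounded.subset_closedBall 0
  have z : ∀ t ∈ Ioo (t0 - δ) (t0 + δ), ∀ y, y ∉ Metric.closedBall 0 (ρ + (C 0 + C 0 * c + 1)) →
      U t y = 0 := fun t ht y hy => by
    have h0 : ∀ x, ‖x - y‖ < C 0 + C 0 * c + 1 → U t0 x = 0 := fun x hx => by
      rw [u2]
      refine image_eq_zero_of_notMem_tsupport fun k => hy ?_
      have := mem_closedBall_zero_iff.1 (hρ k)
      have := norm_sub_norm_le y x
      rw [norm_sub_rev] at hx
      rw [mem_closedBall_zero_iff]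
      linarith
    rcases le_total t0 t with k | k
    · have s : Icc t0 t ×ˢ Metric.closedBall y (C 0 + C 0 * c + 1) ⊆ Ioo (t0 - δ) (t0 + δ) ×ˢ univ :=
        prod_mono (ordConnected_Ioo.out m0 ht) (subset_univ _)
      exact speed hO s hA s1 (fun p hp => H p (s hp)) h0 k (by nlinarith [ht.2]) a0
    · have s : Icc t t0 ×ˢ Metric.closedBall y (C 0 + C 0 * c + 1) ⊆ Ioo (t0 - δ) (t0 + δ) ×ˢ univ :=
        prod_mono (ordConnected_Ioo.out ht m0) (subset_univ _)
      exact speed' hO s hA s1 (fun p hp => H p (s hp)) h0 k (by nlinarith [ht.1]) a0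
  obtain ⟨η, e1, e2, e3, -, e5⟩ := P354HU.cutoff (O := Ioo (t0 - δ) (t0 + δ)) isOpen_Ioo
    (isCompact_Icc (a := t0 - δ / 2) (b := t0 + δ / 2)) (Icc_subset_Ioo (by linarith) (by linarith))
  refine ⟨fun p => η p.1 • U p.1 p.2, contDiff_iff_contDiffAt.2 fun p => ?_,
    .intro (e2.prod (isCompact_closedBall 0 (ρ + (C 0 + C 0 * c + 1)))) fun p hp => ?_,
    funext fun x => ?_, fun p hp => holds_congr ?_ (ho p ⟨⟨by linarith [hp.1], by linarith [hp.2]⟩,
      mem_univ _⟩), fun t ht => ?_⟩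
  · by_cases k : p.1 ∈ tsupport η
    · exact (e1.comp contDiff_fst).contDiffAt.smul (sm.contDiffAt (hO.mem_nhds ⟨e3 k, mem_univ _⟩))
    · refine (contDiffAt_const (c := (0 : V))).congr_of_eventuallyEq ?_
      filter_upwards [continuous_fst.continuousAt (notMem_tsupport_iff_eventuallyEq.1 k)] with q hq
      rw [show η q.1 = 0 from hq, zero_smul]
  · by_cases k : p.1 ∈ tsupport η
    · rw [z _ (e3 k) _ fun k' => hp ⟨k, k'⟩, smul_zero]
    · rw [image_eq_zero_of_notMem_tsupport k, zero_smul]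
  · show η t0 • U t0 x = _
    rw [(e5 t0 ⟨by linarith, by linarith⟩).self_of_nhds, one_smul, u2]
  · filter_upwards [continuous_fst.continuousAt (e5 p.1 hp)] with q hq
    rw [show η q.1 = 1 from hq, one_smul]
  · have : sl (fun p : ℝ × X3 => η p.1 • U p.1 p.2) t = U t := funext fun x => by
      rw [sl, (e5 t ht).self_of_nhds, one_smul]
    rw [this]
    exact u3 t ⟨by linarith [ht.1], by linarith [ht.2]⟩

end Vale.Agent.P354SR
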