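import Vale.Agent.P354SR.Exist
import Vale.Agent.P354SR.Loc5
import Vale.Agent.P354E2.Short

/-!
Existence for short times.
-/

open scoped ContDiff
open MeasureTheory Set Filter Topology

namespace Vale.Agent.P354SR

open Vale.Agent.P354H Vale.Agent.P354C Vale.Agent.P354A Vale.Agent.P354AS Vale.Agent.P354AE
open Vale.Agent.P354I (cx cut r2)
open Vale.Agent.P354X (maj)
open Vale.Agent.P354CS (V Di Di_le sysK sysK_ok sysK_bd sb_pi sb_clm)
open Vale.Agent.P354CU (Dm)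

theorem r2_ge {z : X3} (h : 5 < |z.2.1| ∨ 5 < |z.2.2|) : 25 ≤ r2 z := by
  unfold r2
  rcases h with h | h <;> nlinarith [sq_abs z.2.1, sq_abs z.2.2, sq_nonneg z.2.1, sq_nonneg z.2.2]

theorem shA {E : Type} [NormedAddCommGroup E] [InnerProductSpace ℝ E] [FiniteDimensional ℝ E]
    (A : Aug V E) : P354SH.SH1 := by
  intro s C hs
  choose cm hcm using sb_cx
  have c0 := (hcm 8 0).nonneg
  have gφ : Good fun z : X3 => cx 2 z.1 * chi 5 z := ⟨(cx_sm 2).mul (chi_sm 5),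
    cs_box (N := (2 : ℕ) + 1) (r := (5 : ℕ) + 1) fun z hz => by
      rcases hz with h | h
      · rw [cx_out h, zero_mul]
      · rw [chi_out h, mul_zero]⟩
  obtain ⟨cφ, hφ⟩ := ex_nk (fun z : X3 => cx 2 z.1 * chi 5 z) 8
  obtain ⟨δ, c, d0, d1, G⟩ := local5
    (fun m => A.cE * (10000 * (1 + C (m + 1)) + ‖Aug.Dn‖ * (2 ^ m * (cm m * C m))))
    ((‖A.il‖ * √((‖Dm‖ * (Fintype.card Ix * √((2 ^ 8 * cm 8) ^ 2 * ∫ y, maj 1 5 y))) ^ 2) +
      ‖A.ir‖ * cφ) ^ 2)
  refine ⟨δ, d0, d1, ‖A.fs‖ * c, fun K f hK w0 hw hb => ?_⟩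
  have sK : ContDiff ℝ ∞ K := contDiff_pi.2 fun i => contDiffOn_univ.1 (hK.sK i)
  have sf : ∀ i, ContDiff ℝ ∞ (cmp f i) := fun i => contDiffOn_univ.1 (hK.sf i)
  have sc : ∀ n, ContDiff ℝ ∞ (cut n f) := fun n =>
    ((cx_sm n).comp contDiff_snd).smul (contDiff_pi.2 sf)
  have sg : ∀ n, ContDiff ℝ ∞ fun p => Aug.Dn (cut n f p) := fun n => Aug.Dn.contDiff.comp (sc n)
  have ok := sysK_ok sK
  have hz : ∀ (n : ℕ) i (z : X3), 5 < |z.2.1| ∨ 5 < |z.2.2| →
      cmp (fun z : X3 => cx n z.1 • w0 z) i z = 0 := fun n i z h => by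
    simp [P354A.cmp, hw.2 z (r2_ge h)]
  have hg : ∀ (n : ℕ) i, Good (cmp (fun z : X3 => cx n z.1 • w0 z) i) := fun n i =>
    ⟨(cx_sm n).mul (hw.1 i), cs_box (N := n + 1) (r := 5) fun z h =>
      h.elim (fun h => by simp [P354A.cmp, cx_out h]) (hz n i z)⟩
  have hH : ∀ (n : ℕ) i, Hk 8 (cmp (fun z : X3 => cx n z.1 • w0 z) i)
      ((2 ^ 8 * cm 8) ^ 2 * ∫ y, maj 1 5 y) := fun n i => by
    refine hk_maj (hg n i) (sq_nonneg _) (fun α hα z => ?_) (hz n i)
    have h4 := (pt_mul (cx_sm n) (hw.1 i) (hcm 8 n) (fun β hβ => hb i β (by omega) z) α hα).trans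
      (mul_le_mul_of_nonneg_right (pow_mono2 hα) (by positivity))
    refine (pow_le_pow_left₀ (abs_nonneg _) h4 2).trans ?_
    rw [one_mul, ← mul_assoc, mul_pow]
    refine mul_le_mul_of_nonneg_left ?_ (sq_nonneg _)
    rw [← Real.rpow_natCast, ← Real.rpow_mul (by positivity), ← Real.rpow_neg_one]
    exact Real.rpow_le_rpow_of_exponent_le (le_add_of_nonneg_right (sq_nonneg _))
      (by push_cast; linarith)
  choose W w1 w2 w3 w4 w5 using fun n : ℕ => G E (A.ext (sysK K) fun p => Aug.Dn (cut n f p)) 0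
    (A.ini (fun z : X3 => cx n z.1 • w0 z) _) (A.ext_ok ok (sg n))
    (by
      rw [zero_sub, zero_add]
      refine A.ext_bd ok.sm (sg n) (sysK_bd sK _ _ fun m t ht i => (hK.bd m t ht i).1)
        fun m t ht => ?_
      have h := fun i => sb_mul (cx_sm n) (P354H.sl_sm (sf i) t) (hcm m n) (hK.bd m t ht i).2
      exact (sb_pi (h Ix.O).nonneg (P354H.sl_sm (sc n) t) h).clm (P354H.sl_sm (sc n) t) Aug.Dn)
    (A.ini_good (hg n) gφ) (A.ini_hk (hg n) gφ (hH n) hφ)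
  simp only [zero_sub, zero_add] at w4 w5
  refine ⟨fun n q => Di (A.fs (W n q)), fun n i => ⟨A.sm_fs (w1 n) i, A.cs_fs (w2 n) i⟩,
    fun n z => congrFun (sl_fs A (w3 n)) z, fun n p hp => A.eqnS_of sK (w1 n) (convex_Icc _ _)
      ⟨by linarith, d0.le⟩ (w4 n) (w3 n) hp ?_, fun n t ht i => ?_⟩
  · by_cases h0 : f p = 0
    · simp [cut, h0]
    · have a0 := abs_le.2 hp
      have a1 : |p.2.1| ≤ (2 : ℕ) := by
        have := not_le.1 fun c => h0 (hK.supp p (.inr c))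
        push_cast
        linarith
      have a2 : |p.2.2.1| ≤ (5 : ℕ) := by
        exact_mod_cast not_lt.1 fun c => h0 (hK.supp p (.inl (r2_ge (.inl c))))
      have a3 : |p.2.2.2| ≤ (5 : ℕ) := by
        exact_mod_cast not_lt.1 fun c => h0 (hK.supp p (.inl (r2_ge (.inr c))))
      rw [chi, cx_in a1, cx_in a2, cx_in a3, one_mul, one_mul, one_smul]
  · exact sb_clm ((ContinuousLinearMap.proj i).comp (Di.comp A.fs))
      (ContinuousLinearMap.opNorm_le_bound _ (norm_nonneg _) fun v => fs_le A v i) (w5 n t ht)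
      (P354H.sl_sm (w1 n) t)

/-- **SH1.** -/
theorem sh1 : P354SH.SH1 := shA (aug V)

/-- **SHORT.** -/
theorem short : P354I.SHORT := P354SH.short_of sh1 P354E2.sh23

end Vale.Agent.P354SR
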