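import Vale.Agent.P354SR.Ext
import Vale.Agent.P354AS.Solve

/-!
Global existence with a source.
-/

open scoped ContDiff
open MeasureTheory Set Filter Topology

namespace Vale.Agent.P354SR

open Vale.Agent.P354H Vale.Agent.P354C Vale.Agent.P354A Vale.Agent.P354AS Vale.Agent.P354AE
open Vale.Agent.P354I (cx)
open Vale.Agent.P354X (maj maj_int maj_nn tsupp_pdl)
open Vale.Agent.P354CS (V Di Di_le sysK sysK_ok sysK_bd sb_pi)
open Vale.Agent.P354CU (Dm)

theorem hk_maj {n : ℕ} {φ : X3 → ℝ} {c r : ℝ} (hg : Good φ) (hc : 0 ≤ c)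
    (h : ∀ α : List (Fin 3), α.length ≤ n → ∀ z, |pdl α φ z| ^ 2 ≤ c * (1 + z.1 ^ 2)⁻¹)
    (hs : ∀ z : X3, r < |z.2.1| ∨ r < |z.2.2| → φ z = 0) : Hk n φ (c * ∫ y, maj 1 r y) := by
  intro α hα
  rw [← integral_const_mul]
  refine integral_mono (hg.pdl α).c0.sq ((maj_int one_ne_zero r).const_mul _) fun z => ?_
  by_cases hz : z.2 ∈ Icc (-r) r ×ˢ Icc (-r) r
  · simp only [maj, indicator_of_mem hz, mul_one, one_mul]
    exact h α hα z
  · have e2 : tsupport φ ⊆ {y : X3 | y.2 ∈ Icc (-r) r ×ˢ Icc (-r) r} := by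
      refine closure_minimal (fun y hy => ?_)
        ((isClosed_Icc.prod isClosed_Icc).preimage continuous_snd)
      by_contra c
      rw [mem_ofPred_eq, mem_prod, mem_Icc, mem_Icc, ← abs_le, ← abs_le, not_and_or, not_le,
        not_le] at c
      exact hy (hs y c)
    simp only [image_eq_zero_of_notMem_tsupport fun c => hz (e2 (tsupp_pdl α _ c)), norm_zero]
    exact le_of_eq_of_le (by simp) (mul_nonneg hc (maj_nn _ _ _))

theorem cs_box {W : Type} [Zero W] {φ : X3 → W} {N r : ℝ}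
    (h : ∀ z : X3, N < |z.1| ∨ r < |z.2.1| ∨ r < |z.2.2| → φ z = 0) : HasCompactSupport φ := by
  refine HasCompactSupport.intro ((isCompact_Icc (a := -N) (b := N)).prod
    ((isCompact_Icc (a := -r) (b := r)).prod (isCompact_Icc (a := -r) (b := r)))) fun z hz => ?_
  simp only [mem_prod, mem_Icc, ← abs_le, not_and_or, not_le] at hz
  exact h z hz

theorem sb_L (L : X3 →L[ℝ] ℝ) (k : ℕ) {f : ℝ → ℝ} (hf : ContDiff ℝ ∞ f)
    (hc : HasCompactSupport f) : ∃ c, Sb k (fun z => f (L z)) c := by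
  induction k generalizing f with
  | zero =>
    obtain ⟨c, h⟩ := hf.continuous.bounded_above_of_compact_support hc
    exact ⟨c, sb_zero fun z => h _⟩
  | succ k ih =>
    obtain ⟨c, h⟩ := hf.continuous.bounded_above_of_compact_support hc
    obtain ⟨d, h'⟩ := ih (contDiff_infty_iff_deriv.1 hf).2 hc.deriv
    refine ⟨max c (‖L‖ * d), sb_succ (fun z => (h _).trans (le_max_left _ _)) fun j => ?_⟩
    have e1 : P354H.pd j (fun z => f (L z)) = L (e j) • fun z => deriv f (L z) := by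
      funext z
      have h := (hf.differentiable (by simp) (L z)).hasDerivAt.comp_hasFDerivAt z L.hasFDerivAt
      rw [P354H.pd, show fderiv ℝ (fun z : X3 => f (L z)) z = _ from h.fderiv]
      simp [mul_comm]
    rw [e1]
    refine (h'.smul ((contDiff_infty_iff_deriv.1 hf).2.comp L.contDiff) _).mono le_rfl
      (le_trans (mul_le_mul_of_nonneg_right ?_ h'.nonneg) (le_max_right _ _))
    exact (L.le_opNorm _).trans (by rw [norm_e, mul_one])

theorem cx_sm1 (m : ℕ) : ContDiff ℝ ∞ (cx m) :=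
  (Real.smoothTransition.contDiff.comp (contDiff_const.sub contDiff_id)).mul
    (Real.smoothTransition.contDiff.comp (contDiff_const.add contDiff_id))

/-- The cut-off in the angles. -/
noncomputable def chi (m : ℕ) (z : X3) : ℝ := cx m z.2.1 * cx m z.2.2

theorem chi_sm (m : ℕ) : ContDiff ℝ ∞ (chi m) :=
  ((cx_sm1 m).comp contDiff_snd.fst).mul ((cx_sm1 m).comp contDiff_snd.snd)

theorem chi_out {m : ℕ} {z : X3} (h : (m : ℝ) + 1 < |z.2.1| ∨ (m : ℝ) + 1 < |z.2.2|) :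
    chi m z = 0 := by
  rcases h with h | h <;> simp [chi, cx_out h]

theorem sb_chi (m k : ℕ) : ∃ c, Sb k (chi m) c := by
  have hc : HasCompactSupport (cx m) :=
    HasCompactSupport.intro (isCompact_closedBall 0 ((m : ℝ) + 1)) fun y hy => by
      rw [mem_closedBall_zero_iff, Real.norm_eq_abs, not_le] at hy
      exact cx_out hy
  obtain ⟨c, h⟩ := sb_L ((ContinuousLinearMap.fst ℝ ℝ ℝ).comp (.snd ℝ ℝ (ℝ × ℝ))) k (cx_sm1 m) hc
  obtain ⟨d, h'⟩ := sb_L ((ContinuousLinearMap.snd ℝ ℝ ℝ).comp (.snd ℝ ℝ (ℝ × ℝ))) k (cx_sm1 m) hc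
  exact ⟨_, sb_mul ((cx_sm1 m).comp contDiff_snd.fst) ((cx_sm1 m).comp contDiff_snd.snd) h h'⟩

/-- The weight. -/
noncomputable def rho (x : ℝ) : ℝ := (1 + x ^ 2)⁻¹

theorem rho_sm : ContDiff ℝ ∞ rho :=
  (contDiff_const.add (contDiff_id.pow 2)).inv fun x => by positivity

theorem rho_d (x : ℝ) : HasDerivAt rho (-2 * (x * rho x * rho x)) x := by
  have h := ((hasDerivAt_pow 2 x).const_add 1).inv (by positivity)
  refine h.congr_deriv ?_
  unfold rho
  field_simp
  simp [mul_comm]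

theorem rho_bd (k : ℕ) : ∃ c, 1 ≤ c ∧ Sb k (fun z : X3 => z.1 * rho z.1) c ∧
    ∀ α : List (Fin 3), α.length ≤ k → ∀ z, |pdl α (fun z : X3 => rho z.1) z| ≤ c * rho z.1 := by
  have r0 : ∀ x, 0 < rho x := fun x => by unfold rho; positivity
  have r1 : ∀ x, rho x ≤ 1 := fun x => inv_le_one_of_one_le₀ (le_add_of_nonneg_right (sq_nonneg _))
  have u1 : ∀ x, |x * rho x| ≤ 1 := fun x => by
    rw [abs_mul, abs_of_pos (r0 x), rho, ← div_eq_mul_inv, div_le_one (by positivity)]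
    nlinarith [sq_abs x, sq_nonneg (|x| - 1)]
  have s1 : ContDiff ℝ ∞ fun z : X3 => rho z.1 := rho_sm.comp contDiff_fst
  have s2 : ContDiff ℝ ∞ fun z : X3 => z.1 * rho z.1 := contDiff_fst.mul s1
  have he : ∀ j, |(e j).1| ≤ 1 := fun j => (norm_fst_le (e j)).trans (norm_e j).le
  induction k with
  | zero =>
    refine ⟨1, le_rfl, sb_zero fun z => u1 _, fun α hα z => ?_⟩
    rw [List.length_eq_zero_iff.1 (Nat.le_zero.1 hα), pdl, one_mul, abs_of_pos (r0 _)]
  | succ k ih =>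
    obtain ⟨c, c1, h1, h2⟩ := ih
    have p : 0 ≤ 2 ^ k * (c * c) := by positivity
    have h3 : Sb k (fun z : X3 => rho z.1) c := fun α hα z =>
      (h2 α hα z).trans (mul_le_of_le_one_right (by linarith) (r1 _))
    refine ⟨c + 2 * (2 ^ k * (c * c)), by linarith, sb_succ (fun z => (u1 _).trans (by linarith))
      fun j => ?_, fun α hα z => ?_⟩
    · have e1 : P354H.pd j (fun z : X3 => z.1 * rho z.1) = (e j).1 • ((fun z : X3 => rho z.1) +
          (-2 : ℝ) • fun z : X3 => z.1 * rho z.1 * (z.1 * rho z.1)) := by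
        rw [pd_fst (f := fun x => x * rho x) (contDiff_id.mul rho_sm)]
        funext z
        rw [((hasDerivAt_id' z.1).fun_mul (rho_d z.1)).deriv]
        simp only [Pi.smul_apply, Pi.add_apply, smul_eq_mul]
        ring
      rw [e1]
      refine ((h3.add ((sb_mul s2 s2 h1 h1).smul (s2.mul s2) _) s1 ((s2.mul s2).const_smul
        (-2 : ℝ))).smul (s1.add ((s2.mul s2).const_smul (-2 : ℝ))) _).mono le_rfl ?_
      rw [abs_neg, abs_two]
      exact mul_le_of_le_one_left (by linarith) (he j)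
    · cases α with
      | nil =>
        rw [pdl, abs_of_pos (r0 _)]
        exact le_mul_of_one_le_left (r0 _).le (by linarith)
      | cons j α =>
        have e1 : P354H.pd j (fun z : X3 => rho z.1) =
            ((e j).1 * -2) • fun z : X3 => z.1 * rho z.1 * rho z.1 := by
          rw [pd_fst rho_sm]
          funext z
          rw [(rho_d z.1).deriv, Pi.smul_apply, smul_eq_mul, ← mul_assoc]
        have hα' : α.length ≤ k := by simpa using hα
        rw [pdl, e1, pdl_smul α _ (s2.mul s1), Pi.smul_apply, smul_eq_mul, abs_mul, abs_mul,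
          abs_neg, abs_two]
        have h4 := (pt_mul s2 s1 h1 (fun β hβ => h2 β hβ z) α hα').trans
          (mul_le_mul_of_nonneg_right (pow_mono2 hα') (by have := r0 z.1; positivity))
        have h5 := mul_le_mul (mul_le_mul_of_nonneg_right (he j) zero_le_two) h4 (abs_nonneg _)
          (by norm_num)
        have := mul_pos (show 0 < c by linarith) (r0 z.1)
        linarith

/-- The initial value of the extra unknown. -/
noncomputable def ph (m n : ℕ) (z : X3) : ℝ := cx n z.1 * chi m z * rho z.1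

theorem ph_good (m n : ℕ) : Good (ph m n) :=
  ⟨((cx_sm n).mul (chi_sm m)).mul (rho_sm.comp contDiff_fst),
    cs_box (N := n + 1) (r := m + 1) fun z hz => by
      rcases hz with h | h
      · simp [ph, cx_out h]
      · simp [ph, chi_out h]⟩

theorem ph_nk (m : ℕ) : ∃ c, ∀ n, Nk 8 (ph m n) c := by
  obtain ⟨a, ha⟩ := sb_cx 8
  obtain ⟨b, hb⟩ := sb_chi m 8
  obtain ⟨c, c1, -, hc⟩ := rho_bd 8
  refine ⟨_, fun n => (hk_maj (c := (2 ^ 8 * (2 ^ 8 * (a * b) * c)) ^ 2) (r := m + 1) (ph_good m n)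
    (sq_nonneg _) (fun α hα z => ?_) fun z hz => by simp [ph, chi_out hz]).nk⟩
  have h := sb_mul (cx_sm n) (chi_sm m) (ha n) hb
  have p0 := h.nonneg
  have r0 : 0 ≤ rho z.1 := by unfold rho; positivity
  have r1 : rho z.1 ≤ 1 := inv_le_one_of_one_le₀ (le_add_of_nonneg_right (sq_nonneg _))
  have h4 := (pt_mul ((cx_sm n).mul (chi_sm m)) (rho_sm.comp contDiff_fst) h
    (fun β hβ => hc β hβ z) α hα).trans
    (mul_le_mul_of_nonneg_right (pow_mono2 hα) (mul_nonneg p0 (mul_nonneg (by linarith) r0)))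
  refine (pow_le_pow_left₀ (abs_nonneg _) h4 2).trans ?_
  rw [← mul_assoc _ c, ← mul_assoc, mul_pow]
  exact mul_le_mul_of_nonneg_left (pow_le_of_le_one r0 r1 two_ne_zero) (sq_nonneg _)

theorem sb_strip {W : Type} [NormedAddCommGroup W] [NormedSpace ℝ W] {D : Set X3}
    (hD : IsCompact D) (a b : ℝ) (k : ℕ) {g : ℝ × X3 → W} (hg : ContDiff ℝ ∞ g)
    (hs : ∀ p : ℝ × X3, p.2 ∉ D → g p = 0) : ∃ c, ∀ t ∈ Icc a b, Sb k (sl g t) c := by
  have h0 : ∀ {g : ℝ × X3 → W}, ContDiff ℝ ∞ g → (∀ p : ℝ × X3, p.2 ∉ D → g p = 0) →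
      ∃ c, ∀ t ∈ Icc a b, ∀ x, ‖sl g t x‖ ≤ c := fun {g} hg hs => by
    obtain ⟨c, hc⟩ := (isCompact_Icc.prod hD).exists_bound_of_continuousOn
      (hg.continuous.continuousOn (s := Icc a b ×ˢ D))
    refine ⟨max c 0, fun t ht x => ?_⟩
    by_cases hx : x ∈ D
    · exact (hc (t, x) ⟨ht, hx⟩).trans (le_max_left _ _)
    · rw [sl, hs (t, x) hx, norm_zero]
      exact le_max_right _ _
  induction k generalizing g with
  | zero => exact (h0 hg hs).imp fun c h t ht => sb_zero (h t ht)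
  | succ k ih =>
    obtain ⟨c, hc⟩ := h0 hg hs
    choose d hd using fun j => ih (P354HL.dx_sm hg j) fun p hp => by
      have : g =ᶠ[𝓝 p] fun _ => 0 :=
        Filter.mem_of_superset ((hD.isClosed.isOpen_compl.preimage continuous_snd).mem_nhds hp)
          fun q hq => hs q hq
      simp [dx, this.fderiv_eq]
    refine ⟨max c (∑ j, |d j|), fun t ht => sb_succ (fun x => (hc t ht x).trans (le_max_left _ _))
      fun j => ?_⟩
    rw [P354HL.pd_sl hg]
    exact (hd j t ht).mono le_rfl (((le_abs_self _).trans (Finset.single_le_sum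
      (f := fun j => |d j|) (fun _ _ => abs_nonneg _) (Finset.mem_univ j))).trans (le_max_right _ _))

section
variable {E : Type} [NormedAddCommGroup E] [InnerProductSpace ℝ E] (A : Aug V E)

theorem sl_fs {W : ℝ × X3 → E} {w0 : X3 → Ix → ℝ} {φ : X3 → ℝ} (h : sl W 0 = A.ini w0 φ) :
    sl (fun q => Di (A.fs (W q))) 0 = w0 := funext fun x => by
  rw [← A.fs_ini w0 φ x]
  exact congrArg (fun v => Di (A.fs v)) (congrFun h x)

theorem fs_le (v : E) (i : Ix) : |Di (A.fs v) i| ≤ ‖A.fs‖ * ‖v‖ :=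
  (norm_le_pi_norm (Di (A.fs v)) i).trans ((Di.le_opNorm _).trans
    ((mul_le_of_le_one_left (norm_nonneg _) Di_le).trans (A.fs.le_opNorm _)))

include A in
theorem existA [FiniteDimensional ℝ E] (hE : ESTS) : EXISTS := by
  intro k a B A0 r J hk ha hJ
  obtain ⟨η, ε0, C, h1, h2, h3, H⟩ := hE k a B A0 r J hk ha hJ
  refine ⟨η, ε0, C, h1, h2, h3, fun Cb R => ?_⟩
  obtain ⟨cφ, hφ⟩ := ph_nk ⌈r⌉₊
  obtain ⟨δ, c, d0, d1, G⟩ := global2
    (fun m => A.cE * (10000 * (1 + Cb (m + 1)) + ‖Aug.Dn‖ * Cb m))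
    ((‖A.il‖ * √((‖Dm‖ * (Fintype.card Ix * √R)) ^ 2) + ‖A.ir‖ * cφ) ^ 2)
  refine ⟨δ, ‖A.fs‖ * c, d0, d1, fun K f w0 ε hK b1 b2 e0 e1 hf ⟨N, hN⟩ gw hd hR => ?_⟩
  have sK : ContDiff ℝ ∞ K := contDiff_pi.2 hK.sm
  have sf : ContDiff ℝ ∞ fun p : ℝ × X3 => (1 + p.2.1 ^ 2) • f p :=
    (contDiff_const.add (contDiff_snd.fst.pow 2)).smul (contDiff_pi.2 hf.sm)
  set g : ℝ × X3 → V := fun p => Aug.Dn ((1 + p.2.1 ^ 2) • f p) with hg
  have sg : ContDiff ℝ ∞ g := Aug.Dn.contDiff.comp sf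
  set φ := ph ⌈r⌉₊ ⌈N⌉₊ with hφ'
  have gφ : Good φ := ph_good _ _
  have eg : ∀ p : ℝ × X3, φ p.2 • g p = Aug.Dn (f p) := fun p => by
    by_cases h0 : f p = 0
    · simp [hg, h0]
    · have a1 : |p.2.1| ≤ ⌈N⌉₊ := (not_lt.1 fun c => h0 (hN p c)).trans (Nat.le_ceil N)
      have a2 : |p.2.2.1| ≤ ⌈r⌉₊ := (not_lt.1 fun c => h0 (hf.supp p (.inl c))).trans (Nat.le_ceil r)
      have a3 : |p.2.2.2| ≤ ⌈r⌉₊ := (not_lt.1 fun c => h0 (hf.supp p (.inr c))).trans (Nat.le_ceil r)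
      simp only [hg, hφ', ph, chi, cx_in a1, cx_in a2, cx_in a3, one_mul, rho, map_smul]
      rw [inv_smul_smul₀ (by positivity)]
  have ok := sysK_ok sK
  have sol : ∀ {W : ℝ × X3 → E} {T : ℝ}, ContDiff ℝ ∞ W → HasCompactSupport W → 0 ≤ T →
      sl W 0 = A.ini w0 φ → (∀ p : ℝ × X3, p.1 ∈ Icc 0 T → (A.ext (sysK K) g).Holds W p) →
      SolS K f (fun q => Di (A.fs (W q))) T := fun w1 w2 hT w3 w4 =>
    ⟨A.sm_fs w1, A.cs_fs w2, fun p hp =>
      A.eqnS_of sK w1 (convex_Icc _ _) ⟨le_rfl, hT⟩ w4 w3 hp (eg p)⟩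
  obtain ⟨W, s1, s2, s3, s4, s5⟩ := G E (A.ext (sysK K) g) (A.ini w0 φ) (A.ext_ok ok sg)
    (A.ext_bd ok.sm sg (sysK_bd sK _ _ fun m t ht i => (b1 m t ht i).1) fun m t ht =>
      (sb_pi (b1 m t ht Ix.O).1.nonneg (P354H.sl_sm sf t) fun i => (b1 m t ht i).2).clm
        (P354H.sl_sm sf t) Aug.Dn)
    (fun T => by
      obtain ⟨C', h⟩ := b2 T
      choose D hD using fun m => sb_strip ((isCompact_Icc (a := -N) (b := N)).prod
        ((isCompact_Icc (a := -r) (b := r)).prod (isCompact_Icc (a := -r) (b := r)))) (-1) T m sg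
        fun p hp => by
          simp only [mem_prod, mem_Icc, ← abs_le, not_and_or, not_le] at hp
          simp [hg, hp.elim (hN p) (hf.supp p)]
      exact ⟨_, A.ext_bd ok.sm sg (sysK_bd sK _ _ h) hD⟩)
    (A.ini_good gw gφ) (A.ini_hk gw gφ hR (hφ _)) (fun T => by
      choose c hc using fun i => ex_nk (cmp w0 i) (J + 5)
      have hR0 : ∀ i, Hk (J + 5) (cmp w0 i) (∑ j, c j ^ 2) := fun i α hα =>
        ((hc i).hk α hα).trans (Finset.single_le_sum (f := fun j => c j ^ 2)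
          (fun _ _ => sq_nonneg _) (Finset.mem_univ i))
      refine ⟨(‖A.il‖ * √((‖Dm‖ * (Fintype.card Ix *
        √(C * Real.exp (k * T) * (∑ j, c j ^ 2 + 1)))) ^ 2) + ‖A.ir‖ * cφ) ^ 2,
        fun T' hT W w1 w2 w3 w4 => ?_⟩
      have so := sol w1 w2 hT.1 w3 w4
      have h4 := (H K f _ T' ε hK e0 e1 hf so (by rw [sl_fs A w3]; exact hd)).2 _
        (by rw [sl_fs A w3]; exact hR0) T' ⟨hT.1, le_rfl⟩
      have h5 : sl W T' = A.ini (sl (fun q => Di (A.fs (W q))) T') φ := funext fun x => by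
        have := (A.sn_const w1 (convex_Icc _ _) w4 ⟨le_rfl, hT.1⟩ ⟨hT.1, le_rfl⟩ x).trans
          ((congrArg A.sn (congrFun w3 x)).trans (A.sn_ini _ _ _))
        simp only [Aug.ini, sl, Dm_Di, ← this, A.il_ir]
      rw [h5]
      refine A.ini_hk (fun i => ⟨P354H.sl_sm (so.sm i) _, P354HU.cs_sl (so.cs i) _⟩) gφ
        (fun i α hα => ?_) (hφ _)
      refine (h4 i α (by omega)).trans (mul_le_mul_of_nonneg_right
        (mul_le_mul_of_nonneg_left (Real.exp_le_exp.2 ?_) h3.le) (by positivity))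
      exact mul_le_mul_of_nonneg_left hT.2 hk.le)
  have s6 : ∀ T, 0 ≤ T → ∃ W' : ℝ × X3 → E, SolS K f (fun q => Di (A.fs (W' q))) T ∧
      sl W' 0 = A.ini w0 φ ∧ ∀ p : ℝ × X3, p.1 < T + 1 → W' p = W p := by
    intro T hT
    obtain ⟨W', a1, a2, a3⟩ := s5 (T + 1)
    have h0 : sl W' 0 = A.ini w0 φ := by
      rw [← s2]
      exact funext fun x => a3 (0, x) (by simp; linarith)
    refine ⟨W', sol a1 a2 hT h0 fun p hp =>
      P354HL.holds_congr ?_ (s3 p (by linarith [hp.1])), h0, a3⟩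
    filter_upwards [(isOpen_lt continuous_fst continuous_const).mem_nhds
      (show p.1 < T + 1 by linarith [hp.2])] with q hq using a3 q hq
  refine ⟨fun q => Di (A.fs (W q)), A.sm_fs s1, sl_fs A s2, fun p hp =>
    A.eqnS_of sK s1 (convex_Ici (-δ)) (neg_nonpos.2 d0.le) s3 s2 hp (eg p),
    fun p hp i => ?_, fun p hp => ?_, fun T => ?_⟩
  · exact (fs_le A _ i).trans (mul_le_mul_of_nonneg_left ((s4 p.1 hp).zero p.2) (norm_nonneg _))
  · obtain ⟨W', a1, h0, a3⟩ := s6 p.1 hp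
    refine out_congr ?_ ((H K f _ p.1 ε hK e0 e1 hf a1 (by rw [sl_fs A h0]; exact hd)).1 p
      ⟨hp, le_rfl⟩)
    filter_upwards [(isOpen_lt continuous_fst continuous_const).mem_nhds
      (show p.1 < p.1 + 1 by linarith)] with q hq using congrArg (fun v => Di (A.fs v)) (a3 q hq)
  · obtain ⟨W', a1, -, a3⟩ := s6 (max T 0) (le_max_right _ _)
    exact ⟨_, ⟨a1.sm, a1.cs, fun p hp => a1.eq p ⟨hp.1, hp.2.trans (le_max_left _ _)⟩⟩,
      fun p hp => congrArg (fun v => Di (A.fs v)) (a3 p (by linarith [le_max_left T 0]))⟩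

end

/-- **EXISTS.** -/
theorem existS : EXISTS := existA (aug V) ests

/-- **SOLVE2.** -/
theorem solve2' : P354I.SOLVE2 := solve2 existS

end Vale.Agent.P354SR
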