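import Vale.Agent.P354I.Core2
import Vale.Agent.P354AE.Solve

/-!
The source of the interpolated background.
-/

open scoped ContDiff
open Set

namespace Vale.Agent.P354SR

open Vale.Agent.P354H Vale.Agent.P354C Vale.Agent.P354A Vale.Agent.P354I

section
variable {n : ℕ} {f g : ℝ × X3 → ℝ} {p : ℝ × X3} {c d : ℝ}

theorem pb_add (h1 : Pb n f p c) (h2 : Pb n g p d) (hf : Sm f) (hg : Sm g) :
    Pb n (fun p => f p + g p) p (c + d) := fun α hα => by
  rw [dxl_add α hf hg]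
  exact (abs_add_le _ _).trans (add_le_add (h1 α hα) (h2 α hα))

theorem pb_cmul (h1 : Pb n f p c) (hf : Sm f) (r : ℝ) : Pb n (fun p => r * f p) p (|r| * c) :=
  fun α hα => by
    rw [dxl_cmul α hf, abs_mul]
    exact mul_le_mul_of_nonneg_left (h1 α hα) (abs_nonneg _)

theorem pb_sub (h1 : Pb n f p c) (h2 : Pb n g p d) (hf : Sm f) (hg : Sm g) :
    Pb n (fun p => f p - g p) p (c + d) := by
  have := pb_add h1 (pb_cmul h2 hg (-1)) hf (hg.cmul _)
  simpa [sub_eq_add_neg] using this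

theorem pb_zero (hc : 0 ≤ c) : Pb n (fun _ => 0) p c := fun α _ => by
  rw [dxl_zero]
  simpa using hc

theorem pb_list {β : Type} (L : List β) (r : β → ℝ) {F : β → ℝ × X3 → ℝ} (hF : ∀ t, Sm (F t))
    (h : ∀ t ∈ L, Pb n (F t) p c) :
    Pb n (fun p => (L.map fun t => r t * F t p).sum) p ((L.map fun t => |r t|).sum * c) :=
  fun α hα => by
    rw [dxl_list α L fun t => (hF t).cmul (r t), ← List.sum_map_mul_right]
    exact abs_list_le L fun t ht => pb_cmul (h t ht) (hF t) (r t) α hα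

theorem sb_iff (hf : Sm f) {t : ℝ} : Sb n (fun z => f (t, z)) c ↔ ∀ z, Pb n f (t, z) c :=
  ⟨fun h z α hα => by rw [dxl_eq_pdl α hf]; exact h α hα z,
    fun h α hα z => by have := h z α hα; rwa [dxl_eq_pdl α hf] at this⟩

end

/-- The slope of the argument of the weight. -/
def sI (i : Ix) : ℤ := if cL i = 0 then 1 else if cN i = 0 then -1 else 0

theorem psi_eq (i : Ix) : psi i = fun p => Real.smoothTransition (p.2.1 + sI i * p.1) := by
  funext p
  unfold psi sI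
  split_ifs <;> simp [sub_eq_add_neg]

theorem sI_c : ∀ i, c0 i * sI i + c1 i = 0 := by decide

theorem sI_abs (i : Ix) (t : ℝ) : |sI i * t| ≤ |t| := by
  unfold sI
  split_ifs <;> simp

theorem psi_sm (i : Ix) : Sm (psi i) := by
  rw [psi_eq]
  exact Real.smoothTransition.contDiff.comp (by fun_prop)

theorem dv_psi (i : Ix) (a p : ℝ × X3) : dv a (psi i) p =
    deriv Real.smoothTransition (p.2.1 + sI i * p.1) * (a.2.1 + sI i * a.1) := by
  have h1 : HasFDerivAt (fun p : ℝ × X3 => p.2.1 + sI i * p.1) _ p :=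
    (hasFDerivAt_fst.comp p hasFDerivAt_snd).add ((hasFDerivAt_fst (𝕜 := ℝ) (p := p)).const_mul _)
  have h2 := ((Real.smoothTransition.contDiff (n := 1)).differentiable (by simp)
    (p.2.1 + sI i * p.1)).hasDerivAt.comp_hasFDerivAt p h1
  rw [psi_eq, dv, show fderiv ℝ (fun p : ℝ × X3 => Real.smoothTransition (p.2.1 + sI i * p.1)) p = _
    from h2.fderiv]
  simp [mul_add]

theorem psi_bd (n : ℕ) : ∃ S, 0 ≤ S ∧ ∀ i p, Pb n (psi i) p S := by
  obtain ⟨c, h⟩ := P354AE.sb_st n 1 (by simp)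
  refine ⟨c, h.nonneg, fun i p => (sb_iff (psi_sm i) (t := p.1)).1 ?_ p.2⟩
  refine (congrArg (fun f => Sb n f _) (funext fun z => ?_)).mp (h.tr (sI i * p.1, 0))
  simp [tr, psi_eq]

theorem psi_far {p : ℝ × X3} (h : |p.1| + 1 ≤ |p.2.1|) : (∀ i, psi i p = 1) ∨ ∀ i, psi i p = 0 := by
  have k := fun i => abs_le.1 (sI_abs i p.1)
  rcases le_abs.1 h with h | h
  · exact Or.inl fun i => by
      rw [psi_eq]
      exact Real.smoothTransition.one_of_one_le (by linarith [(k i).1])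
  · exact Or.inr fun i => by
      rw [psi_eq]
      exact Real.smoothTransition.zero_of_nonpos (by linarith [(k i).2])

/-- The defect of a product. -/
noncomputable def Bq (j l i : Ix) (A A' B B' : ℝ × X3 → ℝ) (p : ℝ × X3) : ℝ :=
  (psi j p - psi i p) * ((A p - A' p) * B' p) + (psi l p - psi i p) * (A' p * (B p - B' p)) +
    (psi j p * psi l p - psi i p) * ((A p - A' p) * (B p - B' p))

theorem Bq_sm (j l i : Ix) {A A' B B' : ℝ × X3 → ℝ} (a : Sm A) (a' : Sm A') (b : Sm B)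
    (b' : Sm B') : Sm (Bq j l i A A' B B') :=
  ((((psi_sm j).sub (psi_sm i)).mul ((a.sub a').mul b')).add (((psi_sm l).sub (psi_sm i)).mul
    (a'.mul (b.sub b')))).add ((((psi_sm j).mul (psi_sm l)).sub (psi_sm i)).mul
      ((a.sub a').mul (b.sub b')))

theorem dir_ne : ∀ i, ∀ t ∈ fb i ++ fa i, t.2.2.1 ≠ 0 := by decide

theorem lin_W : ∀ i, ∀ t ∈ lin i, isW t.2 := by decide

theorem quad_U : ∀ i, ∀ t ∈ quad i, (t.2.1 = i ∨ t.2.2 ≠ .om ∧ t.2.2 ≠ .omb) ∧
    (t.2.2 = i ∨ t.2.1 ≠ .om ∧ t.2.1 ≠ .omb) := by decide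

theorem list3 {β : Type} (L : List β) {F G H T : β → ℝ} {a b : ℝ}
    (h : ∀ t ∈ L, F t = a * G t + b * H t + T t) :
    (L.map F).sum = a * (L.map G).sum + b * (L.map H).sum + (L.map T).sum := by
  rw [← List.sum_map_mul_left, ← List.sum_map_mul_left, ← List.sum_map_add, ← List.sum_map_add]
  exact congrArg _ (List.map_congr_left h)

section
variable {K K' : ℝ × X3 → Ix → ℝ} (hK : ∀ i, Sm (cmp K i)) (hK' : ∀ i, Sm (cmp K' i))
include hK hK'

theorem KI_sm (i : Ix) : Sm (cmp (KI K K') i) :=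
  ((psi_sm i).mul (hK i)).add ((contDiff_const.sub (psi_sm i)).mul (hK' i))

theorem dv_KI (i : Ix) (a p : ℝ × X3) : dv a (cmp (KI K K') i) p = psi i p * dv a (cmp K i) p +
    (1 - psi i p) * dv a (cmp K' i) p + dv a (psi i) p * (K p i - K' p i) := by
  have e : cmp (KI K K') i = fun p => cmp K' i p + psi i p * (cmp K i p + -1 * cmp K' i p) := by
    funext p
    simp only [P354A.cmp, KI]
    ring
  have s := (hK' i).cmul (-1)
  rw [e, dv_add (hK' i).dif (Sm.dif ((psi_sm i).mul ((hK i).add s))),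
    dv_mul (psi_sm i).dif (Sm.dif ((hK i).add s)), dv_add (hK i).dif s.dif, dv_cmul (hK' i).dif]
  simp only [P354A.cmp]
  ring

theorem FI_eq (i : Ix) : cmp (FI K K') i = fun p =>
    ((fb i ++ fa i).map fun t => (t.1 : ℝ) * Bq t.2.1 t.2.2.2 i (cmp K t.2.1) (cmp K' t.2.1)
      (dx t.2.2.1 (cmp K t.2.2.2)) (dx t.2.2.1 (cmp K' t.2.2.2)) p).sum +
    ((lin i).map fun t => (t.1 : ℝ) * ((psi t.2 p - psi i p) * (K p t.2 - K' p t.2))).sum +
    ((quad i).map fun t => (t.1 : ℝ) * Bq t.2.1 t.2.2 i (cmp K t.2.1) (cmp K' t.2.1)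
      (cmp K t.2.2) (cmp K' t.2.2) p).sum := by
  funext p
  have h0 : (c0 i : ℝ) * sI i + c1 i = 0 := by exact_mod_cast sI_c i
  have h1 := list3 (fb i ++ fa i) (a := psi i p) (b := 1 - psi i p)
    (F := fun t => (t.1 : ℝ) * (KI K K' p t.2.1 * dx t.2.2.1 (cmp (KI K K') t.2.2.2) p))
    (G := fun t => (t.1 : ℝ) * (K p t.2.1 * dx t.2.2.1 (cmp K t.2.2.2) p))
    (H := fun t => (t.1 : ℝ) * (K' p t.2.1 * dx t.2.2.1 (cmp K' t.2.2.2) p))
    (T := fun t => (t.1 : ℝ) * Bq t.2.1 t.2.2.2 i (cmp K t.2.1) (cmp K' t.2.1)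
      (dx t.2.2.1 (cmp K t.2.2.2)) (dx t.2.2.1 (cmp K' t.2.2.2)) p) fun t ht => by
      have e1 : (e t.2.2.1).1 = 0 := by
        have := dir_ne i t ht
        generalize t.2.2.1 = j at this
        fin_cases j <;> simp_all [e]
      simp only [dx_eq, dv_KI hK hK', dv_psi, e1, Bq, KI, P354A.cmp]
      ring
  have h2 := list3 (lin i) (a := psi i p) (b := 1 - psi i p)
    (F := fun t => (t.1 : ℝ) * KI K K' p t.2) (G := fun t => (t.1 : ℝ) * K p t.2)
    (H := fun t => (t.1 : ℝ) * K' p t.2)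
    (T := fun t => (t.1 : ℝ) * ((psi t.2 p - psi i p) * (K p t.2 - K' p t.2))) fun t _ => by
      simp only [KI]
      ring
  have h3 := list3 (quad i) (a := psi i p) (b := 1 - psi i p)
    (F := fun t => (t.1 : ℝ) * (KI K K' p t.2.1 * KI K K' p t.2.2))
    (G := fun t => (t.1 : ℝ) * (K p t.2.1 * K p t.2.2))
    (H := fun t => (t.1 : ℝ) * (K' p t.2.1 * K' p t.2.2))
    (T := fun t => (t.1 : ℝ) * Bq t.2.1 t.2.2 i (cmp K t.2.1) (cmp K' t.2.1)
      (cmp K t.2.2) (cmp K' t.2.2) p) fun t _ => by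
      simp only [Bq, KI, P354A.cmp]
      ring
  change FI K K' p i = _
  rw [FI, res_flat, res_flat, res_flat]
  unfold top linS quadS
  rw [h1, h2, h3, dt_eq, dx_eq 0 (cmp (KI K K') i), dv_KI hK hK', dv_KI hK hK', dv_psi, dv_psi]
  simp only [dt_eq, dx_eq, e, Matrix.cons_val_zero, Prod.fst_zero]
  linear_combination
    deriv Real.smoothTransition (p.2.1 + sI i * p.1) * (K p i - K' p i) * h0

theorem FI_sm (i : Ix) : Sm (cmp (FI K K') i) := by
  rw [FI_eq hK hK']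
  exact ((sm_list _ fun t => (Bq_sm _ _ _ (hK _) (hK' _) ((hK _).dx _) ((hK' _).dx _)).cmul _).add
    (sm_list _ fun t => Sm.cmul (((psi_sm _).sub (psi_sm _)).mul ((hK _).sub (hK' _))) _)).add
    (sm_list _ fun t => (Bq_sm _ _ _ (hK _) (hK' _) (hK _) (hK' _)).cmul _)

theorem FI_zero {k : ℝ} {p : ℝ × X3} (h : (K p = U0 k ∧ K' p = U0 k) ∨ |p.1| + 1 ≤ |p.2.1|) :
    FI K K' p = 0 := by
  funext i
  refine (congrFun (FI_eq hK hK' i) p).trans ?_
  have z : ∀ {β : Type} (L : List β) (F : β → ℝ), (∀ t ∈ L, F t = 0) → (L.map F).sum = 0 :=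
    fun L F h => List.sum_eq_zero fun x hx => by
      obtain ⟨t, ht, rfl⟩ := List.mem_map.1 hx
      exact h t ht
  rw [z, z, z]
  · simp
  all_goals
    intro t ht
    rcases h with ⟨h1, h2⟩ | h
    on_goal 2 => rcases psi_far h with h | h <;> simp [Bq, h]
  · simp [Bq, P354A.cmp, h1, h2]
  · simp [h1, h2]
  · simp [Bq, P354A.cmp, h1, h2, U0_eq k (fo_ne i t ht)]

end

theorem Bq_bd (n : ℕ) : ∃ W, 0 ≤ W ∧ (∀ j i p, Pb n (fun p => psi j p - psi i p) p W) ∧
    ∀ (j l i : Ix) (A A' B B' : ℝ × X3 → ℝ) (p : ℝ × X3) (c d : ℝ), Sm A → Sm A' → Sm B → Sm B' →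
      0 ≤ c → (j = i ∨ Pb n B' p c) → (l = i ∨ Pb n A' p c) → Pb n (fun p => A p - A' p) p d →
      Pb n (fun p => B p - B' p) p d → Pb n (Bq j l i A A' B B') p (W * (d * (c + d))) := by
  obtain ⟨S, hS, h⟩ := psi_bd n
  have h1 := fun j i p => pb_sub (h j p) (h i p) (psi_sm j) (psi_sm i)
  have p1 : (1 : ℝ) ≤ 2 ^ n := one_le_pow₀ one_le_two
  refine ⟨(S + S) + 2 ^ n * (2 ^ n * (4 * S + (2 ^ n * (S * S) + S))), by positivity,
    fun j i p => (h1 j i p).mono le_rfl (le_add_of_nonneg_right (by positivity)),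
    fun j l i A A' B B' p c d a a' b b' hc k1 k2 k3 k4 => ?_⟩
  have hd := k3.nonneg
  have t1 : Pb n (fun p => (psi j p - psi i p) * ((A p - A' p) * B' p)) p
      (2 ^ n * ((S + S) * (2 ^ n * (d * c)))) := by
    rcases k1 with rfl | k1
    · simpa using pb_zero (by positivity)
    · exact (h1 j i p).mul (k3.mul k1 (a.sub a') b') ((psi_sm j).sub (psi_sm i)) ((a.sub a').mul b')
  have t2 : Pb n (fun p => (psi l p - psi i p) * (A' p * (B p - B' p))) p
      (2 ^ n * ((S + S) * (2 ^ n * (c * d)))) := by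
    rcases k2 with rfl | k2
    · simpa using pb_zero (by positivity)
    · exact (h1 l i p).mul (k2.mul k4 a' (b.sub b')) ((psi_sm l).sub (psi_sm i)) (a'.mul (b.sub b'))
  have t3 := (pb_sub ((h j p).mul (h l p) (psi_sm j) (psi_sm l)) (h i p)
    ((psi_sm j).mul (psi_sm l)) (psi_sm i)).mul (k3.mul k4 (a.sub a') (b.sub b'))
    (((psi_sm j).mul (psi_sm l)).sub (psi_sm i)) ((a.sub a').mul (b.sub b'))
  refine (pb_add (pb_add t1 t2 (((psi_sm j).sub (psi_sm i)).mul ((a.sub a').mul b'))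
    (((psi_sm l).sub (psi_sm i)).mul (a'.mul (b.sub b')))) t3
    ((((psi_sm j).sub (psi_sm i)).mul ((a.sub a').mul b')).add (((psi_sm l).sub (psi_sm i)).mul
      (a'.mul (b.sub b')))) ((((psi_sm j).mul (psi_sm l)).sub (psi_sm i)).mul
      ((a.sub a').mul (b.sub b')))).mono le_rfl ?_
  generalize (2 : ℝ) ^ n = P at *
  have q1 : 0 ≤ (S + S) * (d * (c + d)) := by positivity
  have q2 : 0 ≤ P * (P * (4 * S)) * (d * d) := by positivity
  have q3 : 0 ≤ P * (P * (P * (S * S) + S)) * (d * c) := by positivity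
  nlinarith

theorem FI_bd (k : ℝ) (n : ℕ) : ∃ G, 0 ≤ G ∧ ∀ (K K' : ℝ × X3 → Ix → ℝ) (c d e : ℝ) (p : ℝ × X3),
    (∀ i, Sm (cmp K i)) → (∀ i, Sm (cmp K' i)) → 0 ≤ c → 0 ≤ d → 0 ≤ e →
    (∀ j, Pb (n + 1) (Ub k K' j) p (c * e)) →
    (∀ j, Pb (n + 1) (fun p => K p j - K' p j) p (d * e)) →
    (∀ j, isW j → Pb n (fun p => K p j - K' p j) p (d * e ^ 2)) →
    ∀ i, Pb n (cmp (FI K K') i) p (G * (d * (1 + c + d)) * e ^ 2) := by
  obtain ⟨W, hW, w1, w2⟩ := Bq_bd n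
  set N : Ix → ℝ := fun i => ((fb i ++ fa i).map fun t => |(t.1 : ℝ)|).sum +
    ((lin i).map fun t => |(t.1 : ℝ)|).sum + ((quad i).map fun t => |(t.1 : ℝ)|).sum with hN
  have l0 : ∀ {β : Type} (L : List β) (r : β → ℝ), 0 ≤ (L.map fun t => |r t|).sum := fun L r =>
    List.sum_nonneg fun x hx => by
      obtain ⟨t, -, rfl⟩ := List.mem_map.1 hx
      exact abs_nonneg _
  have N0 : ∀ i, 0 ≤ N i := fun i => add_nonneg (add_nonneg (l0 _ _) (l0 _ _)) (l0 _ _)
  have p1 : (1 : ℝ) ≤ 2 ^ n := one_le_pow₀ one_le_two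
  refine ⟨(∑ i, N i) * (2 ^ n * W), mul_nonneg (Finset.sum_nonneg fun i _ => N0 i) (by positivity),
    fun K K' c d e p hK hK' hc hd he h1 h2 h3 i => ?_⟩
  have u : ∀ j, j ≠ .om ∧ j ≠ .omb → Pb n (cmp K' j) p (c * e) := fun j hj => by
    have := (h1 j).mono n.le_succ le_rfl
    rwa [show Ub k K' j = cmp K' j from funext fun p => by simp [Ub, U0_eq k hj, P354A.cmp]] at this
  have m1 : W * (d * e * (c * e + d * e)) ≤ 2 ^ n * W * (d * (1 + c + d)) * e ^ 2 := by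
    have : 0 ≤ W * (d * e ^ 2) := by positivity
    have : 0 ≤ (2 ^ n - 1) * (W * (d * (1 + c + d)) * e ^ 2) :=
      mul_nonneg (by linarith) (by positivity)
    nlinarith
  have m2 : 2 ^ n * (W * (d * e ^ 2)) ≤ 2 ^ n * W * (d * (1 + c + d)) * e ^ 2 := by
    have : 0 ≤ 2 ^ n * W * (d * (c + d)) * e ^ 2 := by positivity
    nlinarith
  have s1 := fun t : ℤ × Ix × Fin 3 × Ix => Bq_sm t.2.1 t.2.2.2 i (hK t.2.1) (hK' t.2.1)
    ((hK t.2.2.2).dx t.2.2.1) ((hK' t.2.2.2).dx t.2.2.1)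
  have s2 : ∀ t : ℤ × Ix, Sm fun p => (psi t.2 p - psi i p) * (K p t.2 - K' p t.2) := fun t =>
    ((psi_sm _).sub (psi_sm _)).mul ((hK _).sub (hK' _))
  have s3 := fun t : ℤ × Ix × Ix => Bq_sm t.2.1 t.2.2 i (hK t.2.1) (hK' t.2.1) (hK t.2.2) (hK' t.2.2)
  have t1 := pb_list (fb i ++ fa i) (fun t => (t.1 : ℝ)) s1 fun t ht =>
    (w2 _ _ i _ _ _ _ p (c * e) (d * e) (hK _) (hK' _) ((hK _).dx _) ((hK' _).dx _) (by positivity)
      (Or.inr (dx_ub hK' k _ _ ▸ (h1 _).dx _)) (Or.inr (u _ (fo_ne i t ht)))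
      ((h2 _).mono n.le_succ le_rfl) (by
        have := (h2 t.2.2.2).dx t.2.2.1
        rwa [show (fun p => K p t.2.2.2 - K' p t.2.2.2) =
          fun p => cmp K t.2.2.2 p + -1 * cmp K' t.2.2.2 p from funext fun p => by
            simp [P354A.cmp, sub_eq_add_neg], dx_eq, dv_add (hK _).dif ((hK' _).cmul _).dif,
          dv_cmul (hK' _).dif, show (fun p => dv (0, P354H.e t.2.2.1) (cmp K t.2.2.2) p +
            -1 * dv (0, P354H.e t.2.2.1) (cmp K' t.2.2.2) p) = fun p =>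
            dx t.2.2.1 (cmp K t.2.2.2) p - dx t.2.2.1 (cmp K' t.2.2.2) p from funext fun p => by
            simp [dx_eq, sub_eq_add_neg]] at this)).mono le_rfl m1
  have t2 := pb_list (lin i) (fun t => (t.1 : ℝ)) s2 fun t ht =>
    ((w1 t.2 i p).mul (h3 _ (lin_W i t ht)) ((psi_sm _).sub (psi_sm _))
      ((hK _).sub (hK' _))).mono le_rfl m2
  have t3 := pb_list (quad i) (fun t => (t.1 : ℝ)) s3 fun t ht =>
    (w2 _ _ i _ _ _ _ p (c * e) (d * e) (hK _) (hK' _) (hK _) (hK' _) (by positivity)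
      ((quad_U i t ht).1.imp_right (u _)) ((quad_U i t ht).2.imp_right (u _))
      ((h2 _).mono n.le_succ le_rfl) ((h2 _).mono n.le_succ le_rfl)).mono le_rfl m1
  rw [FI_eq hK hK']
  refine (pb_add (pb_add t1 t2 (sm_list _ fun t => (s1 t).cmul _) (sm_list _ fun t => (s2 t).cmul _))
    t3 ((sm_list _ fun t => (s1 t).cmul _).add (sm_list _ fun t => (s2 t).cmul _))
    (sm_list _ fun t => (s3 t).cmul _)).mono le_rfl ?_
  rw [← add_mul, ← add_mul, mul_assoc (∑ i, N i), mul_assoc (∑ i, N i)]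
  exact mul_le_mul_of_nonneg_right (Finset.single_le_sum (fun i _ => N0 i) (Finset.mem_univ i))
    (by positivity)

theorem src : SRC := by
  intro p0 k ε0 δ1 C K kd H
  choose S S0 hS using psi_bd
  choose G G0 hG using FI_bd k
  obtain ⟨hk, hε0, -, -⟩ := H.pos
  refine ⟨fun m => (1 + 2 ^ m * (S m * 2)) * |C m| +
    G m * (2 * |C (m + 1)| * (1 + |C (m + 1)| + 2 * |C (m + 1)|)) * Real.exp k, fun n η hη => ?_⟩
  have g0 := G0 n
  obtain ⟨η', hη', e1, e2⟩ : ∃ η' > (0 : ℝ), η' ≤ 1 ∧ G n * (2 * η' * (1 + |C (n + 1)| + 2 * η')) ≤ η := by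
    have c0 : 0 < G n * (2 * (3 + |C (n + 1)|)) + 1 := by positivity
    refine ⟨min 1 (η / (G n * (2 * (3 + |C (n + 1)|)) + 1)), by positivity, min_le_left _ _, ?_⟩
    have c1 := (le_div_iff₀ c0).1 (min_le_right 1 (η / (G n * (2 * (3 + |C (n + 1)|)) + 1)))
    have c2 := min_le_left 1 (η / (G n * (2 * (3 + |C (n + 1)|)) + 1))
    have c3 : 0 < min 1 (η / (G n * (2 * (3 + |C (n + 1)|)) + 1)) := by positivity
    generalize min 1 (η / (G n * (2 * (3 + |C (n + 1)|)) + 1)) = x at *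
    nlinarith [mul_nonneg (mul_nonneg g0 c3.le) (sub_nonneg.2 c2)]
  obtain ⟨ε, hε, hc⟩ := H.cont (n + 1) η' hη'
  refine ⟨min ε0 ε, by positivity, fun p hp q hq t ht σ => ?_⟩
  have b0 := fun r hr => Metric.ball_subset_ball (x := p0) (min_le_left ε0 ε) (a := r) hr
  have b1 := fun r hr => Metric.ball_subset_ball (x := p0) (min_le_right ε0 ε) (a := r) hr
  have sm : ∀ r ∈ Metric.ball p0 ε0, ∀ i, Sm (cmp (K r t σ) i) := fun r hr i =>
    contDiffOn_univ.1 ((H.smooth r hr t ht σ).1 i)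
  have s1 := sm p (b0 p hp)
  have s2 := sm q (b0 q hq)
  have s0 := sm p0 (Metric.mem_ball_self hε0)
  have sq : √(Real.exp (-k * t)) = Real.exp (-k * t / 2) := (Real.exp_half _).symm
  have x1 : Real.exp (-k * t / 2) ≤ 1 := Real.exp_le_one_iff.2 (by nlinarith)
  have x2 : ∀ τ, Real.exp (-k * (t + τ) / 2) = Real.exp (-k * t / 2) * Real.exp (-k * τ / 2) :=
    fun τ => by rw [← Real.exp_add]; congr 1; ring
  have x3 : ∀ τ, Real.exp (-k * (t + τ)) ≤ Real.exp (-k * t / 2) * Real.exp (-k * τ) := fun τ => by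
    rw [← Real.exp_add]
    exact Real.exp_le_exp.2 (by nlinarith)
  have x4 : ∀ τ, Real.exp (-k * τ / 2) ^ 2 = Real.exp (-k * τ) := fun τ => by
    rw [pow_two, ← Real.exp_add]; congr 1; ring
  have bu : ∀ r ∈ Metric.ball p0 ε0, ∀ m τ, -1 ≤ τ → ∀ i z, Pb m (Ub k (K r t σ) i) (τ, z)
      (|C m| * (Real.exp (-k * t / 2) * Real.exp (-k * τ / 2))) := fun r hr m τ hτ i z =>
    ((sb_iff (ub_sm (sm r hr) k i)).1 (H.bound r hr t ht σ m τ hτ i).1 z).mono le_rfl (by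
      rw [x2]; gcongr; exact le_abs_self _)
  have bw : ∀ r ∈ Metric.ball p0 ε0, ∀ m τ, -1 ≤ τ → ∀ i z, isW i → Pb m (cmp (K r t σ) i) (τ, z)
      (|C m| * (Real.exp (-k * t / 2) * Real.exp (-k * τ))) := fun r hr m τ hτ i z hi =>
    ((sb_iff (sm r hr i)).1 ((H.bound r hr t ht σ m τ hτ i).2 hi) z).mono le_rfl
      (mul_le_mul (le_abs_self _) (x3 τ) (by positivity) (abs_nonneg _))
  have mixb : ∀ (f g : ℝ × X3 → ℝ) m i z c, Sm f → Sm g → Pb m f z (|C m| * c) →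
      Pb m g z (|C m| * c) → Pb m (fun z => g z + psi i z * (f z - g z)) z
        ((1 + 2 ^ m * (S m * 2)) * |C m| * c) := fun f g m i z c hf hg h1 h2 =>
    (pb_add h2 ((hS m i z).mul (pb_sub h1 h2 hf hg) (psi_sm i) (hf.sub hg)) hg
      ((psi_sm i).mul (hf.sub hg))).mono le_rfl (le_of_eq (by ring))
  have a0 : ∀ m, 0 ≤ G m * (2 * |C (m + 1)| * (1 + |C (m + 1)| + 2 * |C (m + 1)|)) * Real.exp k :=
    fun m => by have := G0 m; positivity
  refine ⟨⟨fun i => (KI_sm s1 s2 i).contDiffOn, fun i => (FI_sm s1 s2 i).contDiffOn⟩,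
    fun m τ hτ i => (sb_iff (ub_sm (KI_sm s1 s2) k i)).2 fun z => ?_,
    fun m τ hτ i hi => (sb_iff (KI_sm s1 s2 i)).2 fun z => ?_, fun z h1 h2 i => ?_,
    fun z hz => FI_zero s1 s2 (k := k) (hz.imp_left fun h =>
      ⟨(H.smooth p (b0 p hp) t ht σ).2.2 z h, (H.smooth q (b0 q hq) t ht σ).2.2 z h⟩),
    fun τ hτ i => (sb_iff (FI_sm s1 s2 i)).2 fun z => ?_,
    fun m τ hτ i => (sb_iff (FI_sm s1 s2 i)).2 fun z => ?_⟩
  · have := mixb _ _ m i _ _ (ub_sm s1 k i) (ub_sm s2 k i) (bu p (b0 p hp) m τ hτ i z)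
      (bu q (b0 q hq) m τ hτ i z)
    rw [show Ub k (KI (K p t σ) (K q t σ)) i = fun z => Ub k (K q t σ) i z + psi i z *
      (Ub k (K p t σ) i z - Ub k (K q t σ) i z) from funext fun z => by simp only [Ub, KI]; ring]
    refine this.mono le_rfl ?_
    rw [sq, mul_assoc _ (Real.exp _)]
    exact mul_le_mul_of_nonneg_right (le_add_of_nonneg_right (a0 m)) (by positivity)
  · have hi' : isW i := by revert hi; cases i <;> decide
    have := mixb _ _ m i _ _ (s1 i) (s2 i) (bw p (b0 p hp) m τ (by linarith) i z hi')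
      (bw q (b0 q hq) m τ (by linarith) i z hi')
    rw [show cmp (KI (K p t σ) (K q t σ)) i = fun z => cmp (K q t σ) i z + psi i z *
      (cmp (K p t σ) i z - cmp (K q t σ) i z) from funext fun z => by simp only [P354A.cmp, KI]; ring]
    refine this.mono le_rfl ?_
    rw [sq, mul_assoc _ (Real.exp _)]
    exact mul_le_mul_of_nonneg_right (le_add_of_nonneg_right (a0 m)) (by positivity)
  · have f1 := (H.full p (b0 p hp) t ht σ z h1 h2).1
    have f2 := (H.full q (b0 q hq) t ht σ z h1 h2).1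
    simp only [FI, res, f1.eqN, f1.eqL, f2.eqN, f2.eqL]
    ring
  · have d1 : ∀ j c, Sb (n + 1) (fun z => K p t σ (τ, z) j - K p0 t σ (τ, z) j) (η' * c) →
        Sb (n + 1) (fun z => K q t σ (τ, z) j - K p0 t σ (τ, z) j) (η' * c) →
        Pb (n + 1) (fun z => K p t σ z j - K q t σ z j) (τ, z) (2 * η' * c) := fun j c h1 h2 => by
      have := pb_sub ((sb_iff ((s1 j).sub (s0 j))).1 h1 z) ((sb_iff ((s2 j).sub (s0 j))).1 h2 z)
        ((s1 j).sub (s0 j)) ((s2 j).sub (s0 j))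
      simp only [P354A.cmp, sub_sub_sub_cancel_right] at this
      exact this.mono le_rfl (le_of_eq (by ring))
    refine (hG n _ _ |C (n + 1)| (2 * η') (Real.exp (-k * τ / 2)) (τ, z) s1 s2 (abs_nonneg _)
      (by positivity) (by positivity) (fun j => (bu q (b0 q hq) _ τ hτ j z).mono le_rfl
        (mul_le_mul_of_nonneg_left (mul_le_of_le_one_left (by positivity) x1) (abs_nonneg _)))
      (fun j => d1 j _ (hc p (b1 p hp) t ht σ τ hτ j).1 (hc q (b1 q hq) t ht σ τ hτ j).1)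
      (fun j hj => x4 τ ▸ (d1 j _ ((hc p (b1 p hp) t ht σ τ hτ j).2 hj)
        ((hc q (b1 q hq) t ht σ τ hτ j).2 hj)).mono n.le_succ le_rfl) i).mono le_rfl ?_
    rw [x4]
    exact mul_le_mul_of_nonneg_right e2 (by positivity)
  · have y1 : ∀ c, 0 ≤ c → |C (m + 1)| * (Real.exp (-k * t / 2) * c) ≤ |C (m + 1)| * c := fun c hc =>
      mul_le_mul_of_nonneg_left (mul_le_of_le_one_left hc x1) (abs_nonneg _)
    refine (hG m _ _ |C (m + 1)| (2 * |C (m + 1)|) (Real.exp (-k * τ / 2)) (τ, z) s1 s2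
      (abs_nonneg _) (by positivity) (by positivity)
      (fun j => (bu q (b0 q hq) _ τ hτ.1 j z).mono le_rfl (y1 _ (by positivity))) (fun j => ?_)
      (fun j hj => ?_) i).mono le_rfl ?_
    · have := pb_sub (bu p (b0 p hp) (m + 1) τ hτ.1 j z) (bu q (b0 q hq) (m + 1) τ hτ.1 j z)
        (ub_sm s1 k j) (ub_sm s2 k j)
      simp only [Ub, sub_sub_sub_cancel_right] at this
      exact this.mono le_rfl (by linarith [y1 _ (Real.exp_pos (-k * τ / 2)).le])
    · exact (pb_sub (bw p (b0 p hp) (m + 1) τ hτ.1 j z hj) (bw q (b0 q hq) (m + 1) τ hτ.1 j z hj)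
        (s1 j) (s2 j)).mono m.le_succ (by rw [x4]; linarith [y1 _ (Real.exp_pos (-k * τ)).le])
    · rw [x4]
      have := S0 m
      have := G0 m
      exact le_add_of_nonneg_of_le (by positivity) (mul_le_mul_of_nonneg_left
        (Real.exp_le_exp.2 (by nlinarith [hτ.1])) (by positivity))

end Vale.Agent.P354SR
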