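import Vale.Agent.P354AE.Solve
import Vale.Agent.P354AS.Defs

/-!
A source as an extra unknown.
-/

open scoped ContDiff
open MeasureTheory Set Filter Topology

namespace Vale.Agent.P354SR

open Vale.Agent.P354H Vale.Agent.P354C Vale.Agent.P354A Vale.Agent.P354AS
open Vale.Agent.P354CS (Di sysK sc_pos sb_clm)
open Vale.Agent.P354CU (Dm Di_Dm)

section
variable {E V F G : Type} [NormedAddCommGroup E] [NormedSpace ℝ E] [NormedAddCommGroup V]
  [NormedSpace ℝ V] [NormedAddCommGroup F] [NormedSpace ℝ F] [NormedAddCommGroup G]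
  [NormedSpace ℝ G]

/-- Composition on both sides. -/
noncomputable def cj (L : F →L[ℝ] G) (π : E →L[ℝ] V) : (V →L[ℝ] F) →L[ℝ] E →L[ℝ] G :=
  (ContinuousLinearMap.compL ℝ E F G L).comp ((ContinuousLinearMap.compL ℝ E V F).flip π)

theorem cj_ap (L : F →L[ℝ] G) (π : E →L[ℝ] V) (A : V →L[ℝ] F) (w : E) :
    cj L π A w = L (A (π w)) := rfl

theorem cj_sm (L : F →L[ℝ] G) (π : E →L[ℝ] V) {A : ℝ × X3 → V →L[ℝ] F} (h : ContDiff ℝ ∞ A) :
    ContDiff ℝ ∞ fun p => cj L π (A p) := (cj L π).contDiff.comp h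

theorem cj_sb (L : F →L[ℝ] G) (π : E →L[ℝ] V) {A : X3 → V →L[ℝ] F} {k : ℕ} {c : ℝ}
    (h : Sb k A c) (h' : ContDiff ℝ ∞ A) : Sb k (fun x => cj L π (A x)) (‖L‖ * ‖π‖ * c) := by
  refine sb_clm _ (ContinuousLinearMap.opNorm_le_bound _ (by positivity) fun B => ?_) h h'
  refine (L.opNorm_comp_le (B.comp π)).trans ?_
  rw [mul_assoc, mul_comm ‖π‖]
  exact mul_le_mul_of_nonneg_left (B.opNorm_comp_le π) (norm_nonneg _)

end

/-- The space E is the orthogonal sum of V and a line. -/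
structure Aug (V E : Type) [NormedAddCommGroup V] [InnerProductSpace ℝ V] [NormedAddCommGroup E]
    [InnerProductSpace ℝ E] where
  fs : E →L[ℝ] V
  sn : E →L[ℝ] ℝ
  il : V →L[ℝ] E
  ir : ℝ →L[ℝ] E
  fs_il : ∀ v, fs (il v) = v
  fs_ir : ∀ r, fs (ir r) = 0
  sn_il : ∀ v, sn (il v) = 0
  sn_ir : ∀ r, sn (ir r) = r
  il_ir : ∀ w, il (fs w) + ir (sn w) = w
  inner_il : ∀ v w, inner ℝ (il v) w = inner ℝ v (fs w)

/-- The space with one more unknown. -/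
noncomputable def aug (V : Type) [NormedAddCommGroup V] [InnerProductSpace ℝ V] :
    Aug V (WithLp 2 (V × ℝ)) where
  fs := WithLp.fstL 2 ℝ V ℝ
  sn := WithLp.sndL 2 ℝ V ℝ
  il := (WithLp.prodContinuousLinearEquiv 2 ℝ V ℝ).symm.toContinuousLinearMap.comp (.inl ℝ V ℝ)
  ir := (WithLp.prodContinuousLinearEquiv 2 ℝ V ℝ).symm.toContinuousLinearMap.comp (.inr ℝ V ℝ)
  fs_il _ := rfl
  fs_ir _ := rfl
  sn_il _ := rfl
  sn_ir _ := rfl
  il_ir _ := (WithLp.prodContinuousLinearEquiv 2 ℝ V ℝ).injective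
    (Prod.ext (add_zero _) (zero_add _))
  inner_il v w := (WithLp.prod_inner_apply _ _).trans (by
    change inner ℝ v w.ofLp.1 + inner ℝ (0 : ℝ) w.ofLp.2 = _
    rw [inner_zero_left, add_zero]
    rfl)

namespace Aug

variable {E : Type} [NormedAddCommGroup E] [InnerProductSpace ℝ E]

section
variable {V : Type} [NormedAddCommGroup V] [InnerProductSpace ℝ V] (A : Aug V E)

noncomputable def T3 : V →L[ℝ] E →L[ℝ] E :=
  (ContinuousLinearMap.smulRightL ℝ E E A.sn).comp A.il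

theorem T3_ap (v : V) (w : E) : A.T3 v w = A.sn w • A.il v := rfl

/-- The extra unknown is constant in time and multiplies the source g. -/
noncomputable def ext (S : Sys V) (g : ℝ × X3 → V) : Sys E where
  a j p := cj A.il A.fs (S.a j p)
  l j p := cj (cj A.il A.fs) A.fs (S.l j p)
  b p := cj A.il A.fs (S.b p) + A.T3 (g p)
  q p := cj (cj A.il A.fs) A.fs (S.q p)

theorem sym_cj {B : V →L[ℝ] V} (h : Sym B) : Sym (cj A.il A.fs B) := fun v w => by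
  rw [cj_ap, cj_ap, A.inner_il, real_inner_comm (A.il _) v, A.inner_il, h, real_inner_comm]

variable {S : Sys V} {g : ℝ × X3 → V}

theorem ext_ok (hS : S.OK) (hg : ContDiff ℝ ∞ g) : (A.ext S g).OK :=
  ⟨⟨fun j => cj_sm _ _ (hS.sm.a j), fun j => cj_sm _ _ (hS.sm.l j),
    (cj_sm _ _ hS.sm.b).add (A.T3.contDiff.comp hg), cj_sm _ _ hS.sm.q⟩,
    fun j p => A.sym_cj (hS.sa j p), fun j p _ => A.sym_cj (hS.sl j p _)⟩

/-- The constant of the bounds. -/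
noncomputable def cE : ℝ :=
  ‖A.il‖ * ‖A.fs‖ + ‖cj A.il A.fs‖ * ‖A.fs‖ + ‖A.T3‖

theorem ext_bd (hS : S.Sm) (hg : ContDiff ℝ ∞ g) {I : Set ℝ} {C D : ℕ → ℝ} (h : S.Bd I C)
    (h' : ∀ k, ∀ t ∈ I, Sb k (sl g t) (D k)) : (A.ext S g).Bd I fun k => A.cE * (C k + D k) := by
  intro k t ht
  obtain ⟨b1, b2, b3⟩ := h k t ht
  have c0 := b2.nonneg
  have d0 := (h' k t ht).nonneg
  have n1 : 0 ≤ ‖A.il‖ * ‖A.fs‖ := by positivity
  have n2 : 0 ≤ ‖cj A.il A.fs‖ * ‖A.fs‖ := by positivity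
  have n3 := norm_nonneg A.T3
  have m := mul_nonneg n1 c0
  have m := mul_nonneg n2 c0
  have m := mul_nonneg n3 c0
  have m := mul_nonneg n1 d0
  have m := mul_nonneg n2 d0
  have m := mul_nonneg n3 d0
  refine ⟨fun j => ⟨(cj_sb _ _ (b1 j).1 (sl_sm (hS.a j) t)).mono le_rfl ?_,
    (cj_sb _ _ (b1 j).2 (sl_sm (hS.l j) t)).mono le_rfl ?_⟩,
    ((cj_sb _ _ b2 (sl_sm hS.b t)).add (sb_clm A.T3 le_rfl (h' k t ht) (sl_sm hg t))
      (sl_sm (cj_sm _ _ hS.b) t) (A.T3.contDiff.comp (sl_sm hg t))).mono le_rfl ?_,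
    (cj_sb _ _ b3 (sl_sm hS.q t)).mono le_rfl ?_⟩ <;> unfold cE <;> linarith

theorem ext_holds {W : ℝ × X3 → E} {p : ℝ × X3} (hW : DifferentiableAt ℝ W p)
    (h : (A.ext S g).Holds W p) : A.sn (dt W p) = 0 ∧ dt (fun q => A.fs (W q)) p =
      ∑ j, S.A j p (A.fs (W p)) (dx j (fun q => A.fs (W q)) p) + S.F p (A.fs (W p)) + A.sn (W p) • g p := by
  have e : fderiv ℝ (fun q => A.fs (W q)) p = A.fs.comp (fderiv ℝ W p) :=
    (A.fs.hasFDerivAt.comp p hW.hasFDerivAt).fderiv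
  rw [Sys.Holds] at h
  refine ⟨?_, ?_⟩
  · simp only [h, Sys.A, Sys.F, ext, add_apply, cj_ap, T3_ap, map_add, map_sum, map_smul,
      A.sn_il, smul_zero, add_zero, Finset.sum_const_zero]
  · have := congrArg A.fs h
    simp only [Sys.A, Sys.F, ext, add_apply, cj_ap, T3_ap, map_add, map_sum, map_smul,
      A.fs_il] at this
    simp only [dt, dx, e, ContinuousLinearMap.comp_apply, Sys.A, Sys.F, add_apply] at this ⊢
    rw [this]
    abel

theorem sn_const {W : ℝ × X3 → E} (hW : ContDiff ℝ ∞ W) {I : Set ℝ} (hI : Convex ℝ I)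
    (h : ∀ p : ℝ × X3, p.1 ∈ I → (A.ext S g).Holds W p) {s t : ℝ} (hs : s ∈ I) (ht : t ∈ I)
    (x : X3) : A.sn (W (t, x)) = A.sn (W (s, x)) := by
  have d := fun p => hW.differentiable (by simp) p
  have := hI.norm_image_sub_le_of_norm_hasDerivWithin_le (f := fun r => A.sn (W (r, x)))
    (f' := fun _ => 0) (C := 0) (fun r hr => ?_) (fun _ _ => norm_zero.le) hs ht
  · rwa [zero_mul, norm_le_zero_iff, sub_eq_zero] at this
  · have a0 : HasDerivAt (fun r => W (r, x)) (dt W (r, x)) r :=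
      HasFDerivAt.comp_hasDerivAt (l := W) (f := fun r => (r, x)) r (d _).hasFDerivAt
        ((hasDerivAt_id r).prodMk (hasDerivAt_const r x))
    have a1 := A.sn.hasFDerivAt.comp_hasDerivAt r a0
    rw [(A.ext_holds (d _) (h (r, x) hr)).1] at a1
    exact a1.hasDerivWithinAt

end

open Vale.Agent.P354CS (V)

variable (A : Aug V E)

/-- The vector - u / sc. -/
noncomputable def Dn : (Ix → ℝ) →L[ℝ] V :=
  (EuclideanSpace.equiv Ix ℝ).symm.toContinuousLinearMap.comp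
    (ContinuousLinearMap.pi fun i => (-(sc i)⁻¹) • ContinuousLinearMap.proj i)

theorem Dn_ap (u : Ix → ℝ) (i : Ix) : Dn u i = -(sc i)⁻¹ * u i := by simp [Dn]

/-- The initial value. -/
noncomputable def ini (w0 : X3 → Ix → ℝ) (φ : X3 → ℝ) (x : X3) : E :=
  A.il (Dm (w0 x)) + A.ir (φ x)

theorem ini_good {w0 : X3 → Ix → ℝ} {φ : X3 → ℝ} (h : ∀ i, Good (cmp w0 i)) (h' : Good φ) :
    Good (A.ini w0 φ) := (((P354AE.good_pi h).clm Dm).clm A.il).add (h'.clm A.ir)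

theorem ini_hk {n : ℕ} {w0 : X3 → Ix → ℝ} {φ : X3 → ℝ} {R c : ℝ} (h : ∀ i, Good (cmp w0 i))
    (h' : Good φ) (b : ∀ i, Hk n (cmp w0 i) R) (b' : Nk n φ c) : Hk n (A.ini w0 φ)
      ((‖A.il‖ * √((‖Dm‖ * (Fintype.card Ix * √R)) ^ 2) + ‖A.ir‖ * c) ^ 2) :=
  (((P354AE.hk_pi h b).nk.clm ((P354AE.good_pi h).clm Dm) A.il).add (b'.clm h' A.ir)
    (((P354AE.good_pi h).clm Dm).clm A.il) (h'.clm A.ir)).hk

theorem fs_ini (w0 : X3 → Ix → ℝ) (φ : X3 → ℝ) (x : X3) : Di (A.fs (A.ini w0 φ x)) = w0 x := by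
  rw [ini, map_add, A.fs_il, A.fs_ir, add_zero, Di_Dm]

theorem sn_ini (w0 : X3 → Ix → ℝ) (φ : X3 → ℝ) (x : X3) : A.sn (A.ini w0 φ x) = φ x := by
  rw [ini, map_add, A.sn_il, A.sn_ir, zero_add]

theorem eqnS_of {g : ℝ × X3 → V} {K f : ℝ × X3 → Ix → ℝ} {W : ℝ × X3 → E}
    {w0 : X3 → Ix → ℝ} {φ : X3 → ℝ}
    (hK : ContDiff ℝ ∞ K) (hW : ContDiff ℝ ∞ W) {I : Set ℝ} (hI : Convex ℝ I) (h0 : (0 : ℝ) ∈ I)
    (h : ∀ p : ℝ × X3, p.1 ∈ I → (A.ext (sysK K) g).Holds W p) (hi : sl W 0 = A.ini w0 φ)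
    {p : ℝ × X3} (hp : p.1 ∈ I) (hg : φ p.2 • g p = Dn (f p)) :
    EqnS K f (fun q => Di (A.fs (W q))) p := by
  have d := hW.differentiable (by simp) p
  have e1 : A.sn (W p) = φ p.2 :=
    (A.sn_const hW hI h h0 hp p.2).trans ((congrArg A.sn (congrFun hi p.2)).trans (A.sn_ini _ _ _))
  have e2 := P354CS.Res_pert (W := fun q => A.fs (W q)) (hK.differentiable (by simp) p)
    (A.fs.differentiableAt.comp p d)
  rw [(A.ext_holds d (h p hp)).2, e1, hg, P354CS.pert_eq] at e2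
  intro i
  have e3 : P354CS.Res _ _ i = (P354CS.Res (K p) (P354CS.Dc K p) - Dn (f p)) i :=
    congrArg (fun v : V => v i) (e2.trans (by abel))
  rw [PiLp.sub_apply, P354CS.Res_ap, P354CS.Res_ap, Dn_ap, ← mul_sub,
    mul_right_inj' (neg_ne_zero.2 (inv_ne_zero (sc_pos i).ne'))] at e3
  rw [P354CS.dfr_eq, P354CS.dfr_eq]
  exact e3

theorem sm_fs {W : ℝ × X3 → E} (hW : ContDiff ℝ ∞ W) (i : Ix) :
    ContDiff ℝ ∞ (cmp (fun q => Di (A.fs (W q))) i) := P354AE.sm_Di (A.fs.contDiff.comp hW) i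

theorem cs_fs {W : ℝ × X3 → E} (hW : HasCompactSupport W) (i : Ix) :
    HasCompactSupport (cmp (fun q => Di (A.fs (W q))) i) :=
  hW.comp_left (g := fun v => Di (A.fs v) i) (by simp)

end Aug

end Vale.Agent.P354SR
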